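import Vale.Agent.P196.Amen.Reiter

/-! Finitely generated groups acting faithfully with orbits of bounded size are finite. -/

namespace Vale.Agent.P196.Amen

open scoped symmDiff

variable {G X : Type*} [Group G] [MulAction G X]

/-- A finitely generated subgroup acting faithfully with orbits of size at most `N` is finite. -/
theorem closure_finite_of_bounded_orbits [FaithfulSMul G X] (K : Finset G) (N : ℕ)
    (h : ∀ x : X, ∃ O : Finset X, O.card ≤ N ∧ x ∈ O ∧ ∀ g ∈ K, ∀ y ∈ O, g • y ∈ O) :
    (Subgroup.closure (↑K : Set G) : Set G).Finite := by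
  classical
  choose O hN hxO hO using h
  have hmem : ∀ x : X, ∀ g ∈ Subgroup.closure (↑K : Set G), ∀ y, g • y ∈ O x ↔ y ∈ O x := by
    intro x g hg
    induction hg using Subgroup.closure_induction with
    | mem g hg =>
      intro y
      refine ⟨fun hy => ?_, hO x g hg y⟩
      have hinj : ((O x).image (g • ·)) = O x :=
        Finset.eq_of_subset_of_card_le (fun z hz => by
          obtain ⟨w, hw, rfl⟩ := Finset.mem_image.mp hz
          exact hO x g hg w hw) (Finset.card_image_of_injective _ (MulAction.injective g)).ge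
      rw [← hinj] at hy
      obtain ⟨w, hw, hwy⟩ := Finset.mem_image.mp hy
      exact MulAction.injective g hwy ▸ hw
    | one => simp
    | mul a b _ _ iha ihb => intro y; rw [mul_smul, iha, ihb]
    | inv a _ ih => intro y; rw [← ih (a⁻¹ • y), smul_inv_smul]
  let Γ := Subgroup.closure (↑K : Set G)
  let e : ∀ x : X, {y // y ∈ O x} ↪ Fin N := fun x =>
    (Fintype.equivFinOfCardEq (Fintype.card_coe (O x))).toEmbedding.trans (Fin.castLEEmb (hN x))
  let ψ : ∀ x : X, Γ →* Equiv.Perm {y // y ∈ O x} := fun x =>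
    { toFun := fun g => (MulAction.toPerm (g : G)).subtypePerm (fun y => hmem x g g.2 y)
      map_one' := by ext y; simp [MulAction.toPerm]
      map_mul' := fun a b => Equiv.ext fun y => Subtype.ext (mul_smul (a : G) (b : G) (y : X)) }
  let χ : X → Γ →* Equiv.Perm (Fin N) := fun x =>
    (Equiv.Perm.viaEmbeddingHom (e x)).comp (ψ x)
  have hΓ : Group.FG Γ := (Group.fg_iff_subgroup_fg _).mpr ⟨K, rfl⟩
  obtain ⟨T, hT⟩ := Group.fg_def.mp hΓ
  have : Finite (Γ →* Equiv.Perm (Fin N)) := by
    refine Finite.of_injective (β := T → Equiv.Perm (Fin N)) (fun f t => f t) fun f f' hf => ?_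
    exact MonoidHom.eq_of_eqOn_dense (s := (↑T : Set Γ)) hT fun t ht => congrFun hf ⟨t, ht⟩
  have hinj : Function.Injective
      (fun (g : Γ) (f : Set.range χ) => (f : Γ →* Equiv.Perm (Fin N)) g) := by
    intro a b hab
    apply Subtype.ext
    refine eq_of_smul_eq_smul (α := X) fun x => ?_
    have := congrFun hab ⟨χ x, x, rfl⟩
    have h2 : ψ x a = ψ x b := Equiv.Perm.viaEmbeddingHom_injective (e x) this
    exact congrArg Subtype.val (DFunLike.congr_fun h2 ⟨x, hxO x⟩)
  have : Finite Γ := Finite.of_injective _ hinj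
  exact Set.toFinite (Γ : Set G)

/-- A set all whose finite parts act with bounded orbits is Reiter. -/
theorem reiterOn_of_bounded_orbits [FaithfulSMul G X] {S : Set G}
    (h : ∀ K : Finset G, (↑K : Set G) ⊆ S → ∃ N : ℕ, ∀ x : X, ∃ O : Finset X,
      O.card ≤ N ∧ x ∈ O ∧ ∀ g ∈ K, ∀ y ∈ O, g • y ∈ O) : ReiterOn S :=
  reiterOn_of_locallyFinite fun K hK => by
    obtain ⟨N, hN⟩ := h K hK
    exact closure_finite_of_bounded_orbits K N hN

omit [Group G] [MulAction G X] in
/-- The two-stage criterion: almost invariant measures on `O1`, then on `O2` for finitely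
generated parts of stabilisers, and bounded orbits for common stabilisers. -/
theorem folner_two_stage {G A Y O1 O2 : Type*} [Group G] [Group A] [DecidableEq A] [MulAction G O1]
    [MulAction G O2] [MulAction G Y] [FaithfulSMul G Y] (f : A →* G) (hf : Function.Injective f)
    (h1 : AlmostInvOn (Set.univ : Set G) O1)
    (h2 : ∀ (P : O1) (K : Finset G), (∀ g ∈ K, g • P = P) →
      AlmostInvOn (Subgroup.closure (↑K : Set G) : Set G) O2)
    (h3 : ∀ (P : O1) (Q : O2) (K : Finset G), (∀ g ∈ K, g • P = P ∧ g • Q = Q) →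
      ∃ N : ℕ, ∀ x : Y, ∃ O : Finset Y, O.card ≤ N ∧ x ∈ O ∧ ∀ g ∈ K, ∀ y ∈ O, g • y ∈ O) :
    ∀ K : Finset A, ∀ ε : ℝ, 0 < ε → ∃ D : Finset A, D.Nonempty ∧
      ∀ g ∈ K, (((D.image (g * ·)) ∆ D).card : ℝ) < ε * D.card :=
  folner_of_reiterOn <| (reiterOn_comap f hf <| reiterOn_univ_of_almostInv h1 fun P =>
    reiterOn_of_closure fun K hK => reiterOn_of_almostInv _ (h2 P K hK) fun Q =>
      reiterOn_of_bounded_orbits fun K' hK' => h3 P Q K' fun g hg => by
        have hle : Subgroup.closure (↑K : Set G) ≤ MulAction.stabilizer G P :=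
          (Subgroup.closure_le _).mpr hK
        exact ⟨hle (hK' hg).1, (hK' hg).2⟩).mono (by simp)

end Vale.Agent.P196.Amen
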