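import Vale.Agent.P196.Amen.L1

/-!
The product trick: `ℓ¹` cost of shifting independent variables with squared tent laws,
and of pushing them forward.
-/

namespace Vale.Agent.P196.Amen

open Finsupp

variable {α β : Type*}

/-- The Bhattacharyya coefficient. -/
noncomputable def bc (p q : α →₀ ℝ) : ℝ := p.sum fun x a => Real.sqrt (a * q x)

lemma bc_eq_sum (p q : α →₀ ℝ) {U : Finset α} (hU : p.support ⊆ U) :
    bc p q = ∑ x ∈ U, Real.sqrt (p x * q x) :=
  Finsupp.sum_of_support_subset p hU _ (by simp)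

lemma bc_nonneg (p q : α →₀ ℝ) : 0 ≤ bc p q :=
  Finset.sum_nonneg fun _ _ => Real.sqrt_nonneg _

lemma sum_sqrt_sub_sq {p q : α →₀ ℝ} (hp : IsProb p) (hq : IsProb q) {U : Finset α}
    (hpU : p.support ⊆ U) (hqU : q.support ⊆ U) :
    ∑ x ∈ U, (Real.sqrt (p x) - Real.sqrt (q x)) ^ 2 = 2 * (1 - bc p q) := by
  have h : ∀ x ∈ U, (Real.sqrt (p x) - Real.sqrt (q x)) ^ 2 =
      p x + q x - 2 * Real.sqrt (p x * q x) := fun x _ => by
    rw [sub_sq, Real.sq_sqrt (hp.nonneg x), Real.sq_sqrt (hq.nonneg x), Real.sqrt_mul (hp.nonneg x)]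
    ring
  rw [Finset.sum_congr rfl h, Finset.sum_sub_distrib, Finset.sum_add_distrib, hp.sum_eq hpU,
    hq.sum_eq hqU, ← Finset.mul_sum, ← bc_eq_sum p q hpU]
  ring

lemma bc_le_one {p q : α →₀ ℝ} (hp : IsProb p) (hq : IsProb q) : bc p q ≤ 1 := by
  classical
  have := sum_sqrt_sub_sq hp hq (U := p.support ∪ q.support) Finset.subset_union_left
    Finset.subset_union_right
  nlinarith [Finset.sum_nonneg (s := p.support ∪ q.support)
    fun x _ => sq_nonneg (Real.sqrt (p x) - Real.sqrt (q x))]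

lemma l1_sub_le_bc {p q : α →₀ ℝ} (hp : IsProb p) (hq : IsProb q) :
    l1 (p - q) ≤ 2 * Real.sqrt (2 * (1 - bc p q)) := by
  classical
  let U := p.support ∪ q.support
  have hpU : p.support ⊆ U := Finset.subset_union_left
  have hqU : q.support ⊆ U := Finset.subset_union_right
  rw [l1_eq_sum (p - q) (U := U) Finsupp.support_sub]
  have h : ∀ x ∈ U, |(p - q) x| =
      |Real.sqrt (p x) - Real.sqrt (q x)| * (Real.sqrt (p x) + Real.sqrt (q x)) := fun x _ => by
    rw [← abs_of_nonneg (add_nonneg (Real.sqrt_nonneg (p x)) (Real.sqrt_nonneg (q x))), ← abs_mul,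
      Finsupp.sub_apply]
    congr 1
    nlinarith [Real.sq_sqrt (hp.nonneg x), Real.sq_sqrt (hq.nonneg x)]
  rw [Finset.sum_congr rfl h]
  refine (Real.sum_mul_le_sqrt_mul_sqrt U _ _).trans ?_
  simp only [sq_abs]
  rw [sum_sqrt_sub_sq hp hq hpU hqU]
  have h2 : Real.sqrt (∑ x ∈ U, (Real.sqrt (p x) + Real.sqrt (q x)) ^ 2) ≤ 2 := by
    rw [Real.sqrt_le_iff]
    refine ⟨by norm_num, ?_⟩
    calc ∑ x ∈ U, (Real.sqrt (p x) + Real.sqrt (q x)) ^ 2
        ≤ ∑ x ∈ U, (2 * p x + 2 * q x) := Finset.sum_le_sum fun x _ => by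
          nlinarith [Real.sq_sqrt (hp.nonneg x), Real.sq_sqrt (hq.nonneg x),
            sq_nonneg (Real.sqrt (p x) - Real.sqrt (q x))]
      _ = 2 ^ 2 := by
          rw [Finset.sum_add_distrib, ← Finset.mul_sum, ← Finset.mul_sum, hp.sum_eq hpU,
            hq.sum_eq hqU]
          norm_num
  exact (mul_le_mul_of_nonneg_left h2 (Real.sqrt_nonneg _)).trans_eq (by ring_nf)

variable {ι κ : Type*} [Fintype ι] [Fintype κ]

/-- The law of independent variables. -/
noncomputable def piProb (p : ι → α →₀ ℝ) : (ι → α) →₀ ℝ := by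
  classical
  exact Finsupp.onFinset (Fintype.piFinset fun i => (p i).support) (fun θ => ∏ i, p i (θ i))
    (fun θ hθ => Fintype.mem_piFinset.mpr fun i => Finsupp.mem_support_iff.mpr
      fun h => hθ (Finset.prod_eq_zero (Finset.mem_univ i) h))

lemma piProb_apply (p : ι → α →₀ ℝ) (θ : ι → α) : piProb p θ = ∏ i, p i (θ i) := by
  rw [piProb, Finsupp.onFinset_apply]

lemma support_piProb [DecidableEq ι] (p : ι → α →₀ ℝ) :
    (piProb p).support ⊆ Fintype.piFinset fun i => (p i).support := fun θ hθ =>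
  Fintype.mem_piFinset.mpr fun i => Finsupp.mem_support_iff.mpr fun h =>
    Finsupp.mem_support_iff.mp hθ ((piProb_apply p θ).trans (Finset.prod_eq_zero (Finset.mem_univ i) h))

lemma piProb_mem_support {p : ι → α →₀ ℝ} {θ : ι → α} (h : θ ∈ (piProb p).support) (i : ι) :
    θ i ∈ (p i).support := by
  classical
  exact Fintype.mem_piFinset.mp (support_piProb p h) i

lemma isProb_piProb {p : ι → α →₀ ℝ} (hp : ∀ i, IsProb (p i)) : IsProb (piProb p) := by
  classical
  refine ⟨fun θ => ?_, ?_⟩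
  · rw [piProb_apply]
    exact Finset.prod_nonneg fun i _ => (hp i).nonneg _
  · rw [Finsupp.sum_of_support_subset _ (support_piProb p) _ (by simp)]
    simp only [piProb_apply]
    rw [← Finset.prod_univ_sum (fun i => (p i).support) fun i a => p i a,
      Finset.prod_eq_one fun i _ => (hp i).sum_eq subset_rfl]

lemma bc_piProb {p q : ι → α →₀ ℝ} (hp : ∀ i, IsProb (p i)) (hq : ∀ i, IsProb (q i)) :
    bc (piProb p) (piProb q) = ∏ i, bc (p i) (q i) := by
  classical
  rw [bc_eq_sum _ _ (support_piProb p)]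
  simp only [bc, Finsupp.sum, piProb_apply]
  rw [Finset.prod_univ_sum]
  refine Finset.sum_congr rfl fun θ _ => ?_
  rw [← Finset.prod_mul_distrib]
  exact Real.sqrt_prod _ fun i _ => mul_nonneg ((hp i).nonneg _) ((hq i).nonneg _)

omit [Fintype ι] in
lemma one_sub_prod_le (s : Finset ι) (a : ι → ℝ) (h0 : ∀ i, 0 ≤ a i) (h1 : ∀ i, a i ≤ 1) :
    1 - ∏ i ∈ s, a i ≤ ∑ i ∈ s, (1 - a i) := by
  classical
  induction s using Finset.induction_on with
  | empty => simp
  | insert i s hi ih =>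
    rw [Finset.prod_insert hi, Finset.sum_insert hi]
    nlinarith [h0 i, h1 i, Finset.prod_le_one (s := s) (fun j _ => h0 j) (fun j _ => h1 j)]

/-- Hellinger bound for products: the squared costs add. -/
theorem l1_piProb_sub_le {p q : ι → α →₀ ℝ} (hp : ∀ i, IsProb (p i)) (hq : ∀ i, IsProb (q i)) :
    l1 (piProb p - piProb q) ≤ 2 * Real.sqrt (2 * ∑ i, (1 - bc (p i) (q i))) := by
  refine (l1_sub_le_bc (isProb_piProb hp) (isProb_piProb hq)).trans ?_
  rw [bc_piProb hp hq]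
  gcongr
  exact one_sub_prod_le Finset.univ _ (fun i => bc_nonneg _ _) fun i => bc_le_one (hp i) (hq i)

/-- Reindexing by an injection and changing each variable preserves independence. -/
theorem mapDomain_piProb {p : κ → α →₀ ℝ} (hp : ∀ k, IsProb (p k)) (σ : ι → κ)
    (hσ : Function.Injective σ) (e : ι → α → β) :
    (piProb p).mapDomain (fun θ i => e i (θ (σ i))) =
      piProb (fun i => (p (σ i)).mapDomain (e i)) := by
  classical
  ext η
  let f : κ → α → ℝ := fun k a => if ∀ i, σ i = k → e i a = η i then p k a else 0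
  have hR : piProb (fun i => (p (σ i)).mapDomain (e i)) η =
      ∏ k, ∑ a ∈ (p k).support, f k a := by
    rw [piProb_apply]
    refine Fintype.prod_of_injective σ hσ _ _ (fun k hk => ?_) fun i => ?_
    · simp only [f]
      rw [← (hp k).sum_eq subset_rfl]
      refine Finset.sum_congr rfl fun a _ => ?_
      rw [if_pos fun i hi => absurd ⟨i, hi⟩ hk]
    · simp only [f, Finsupp.mapDomain, Finsupp.sum_apply, Finsupp.single_apply]
      refine Finset.sum_congr rfl fun a _ => ?_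
      simp [hσ.eq_iff]
  rw [hR, Finset.prod_univ_sum, Finsupp.mapDomain, Finsupp.sum_apply,
    Finsupp.sum_of_support_subset _ (support_piProb p) _ (by simp)]
  refine Finset.sum_congr rfl fun θ _ => ?_
  rw [piProb_apply, Finsupp.single_apply]
  by_cases h : (fun i => e i (θ (σ i))) = η
  · rw [if_pos h]
    refine Finset.prod_congr rfl fun k _ => ?_
    simp only [f]
    rw [if_pos fun i hi => by rw [← hi]; exact congrFun h i]
  · rw [if_neg h]
    obtain ⟨i, hi⟩ := Function.ne_iff.mp h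
    exact (Finset.prod_eq_zero (Finset.mem_univ (σ i))
      (if_neg fun hall => hi (hall i rfl))).symm

/-- The tent of radius `R` at `c`. -/
def tent (c : ℤ) (R : ℕ) (x : ℤ) : ℝ := ((max 0 ((R : ℤ) - |x - c|) : ℤ) : ℝ)

/-- The mass of a squared tent. -/
noncomputable def tentMass (R : ℕ) : ℝ := ∑ x ∈ Finset.Icc (-(R : ℤ)) R, tent 0 R x ^ 2

lemma tent_nonneg (c : ℤ) (R : ℕ) (x : ℤ) : 0 ≤ tent c R x := by
  unfold tent
  exact_mod_cast le_max_left 0 _

lemma tent_eq_zero {c : ℤ} {R : ℕ} {x : ℤ} (h : (R : ℤ) ≤ |x - c|) : tent c R x = 0 := by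
  unfold tent
  rw [max_eq_left (by omega)]
  simp

/-- The squared tent law of radius `R` at `c`. -/
noncomputable def tentLaw (c : ℤ) (R : ℕ) : ℤ →₀ ℝ :=
  Finsupp.onFinset (Finset.Icc (c - R) (c + R)) (fun x => tent c R x ^ 2 / tentMass R) fun x hx => by
    rw [Finset.mem_Icc]
    by_contra h
    exact hx (by simp [tent_eq_zero (c := c) (R := R) (x := x) (by rw [le_abs]; omega)])

lemma tentLaw_apply (c : ℤ) (R : ℕ) (x : ℤ) : tentLaw c R x = tent c R x ^ 2 / tentMass R := rfl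

lemma abs_sub_lt_of_mem_tentLaw {c : ℤ} {R : ℕ} {x : ℤ} (h : x ∈ (tentLaw c R).support) :
    |x - c| < R := by
  by_contra hh
  exact Finsupp.mem_support_iff.mp h (by simp [tentLaw_apply, tent_eq_zero (not_lt.mp hh)])

lemma tentMass_ge (R : ℕ) : (R : ℝ) ^ 3 / 4 ≤ tentMass R := by
  have hsub : Finset.Icc (-((R / 2 : ℕ) : ℤ)) (R / 2 : ℕ) ⊆ Finset.Icc (-(R : ℤ)) R :=
    Finset.Icc_subset_Icc (by omega) (by omega)
  refine le_trans ?_ (Finset.sum_le_sum_of_subset_of_nonneg hsub fun x _ _ => sq_nonneg _)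
  have h : ∀ x ∈ Finset.Icc (-((R / 2 : ℕ) : ℤ)) (R / 2 : ℕ),
      ((R : ℝ) / 2) ^ 2 ≤ tent 0 R x ^ 2 := fun x hx => by
    refine pow_le_pow_left₀ (by positivity) ?_ 2
    rw [Finset.mem_Icc] at hx
    have hxa : |x - 0| ≤ (R / 2 : ℕ) := by rw [abs_le]; omega
    have : (R : ℤ) ≤ 2 * max 0 ((R : ℤ) - |x - 0|) := by omega
    have h' : (R : ℝ) ≤ 2 * tent 0 R x := by unfold tent; exact_mod_cast this
    linarith
  refine le_trans ?_ (Finset.card_nsmul_le_sum _ _ _ h)
  rw [nsmul_eq_mul, Int.card_Icc]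
  have : (R : ℝ) ≤ ((((R / 2 : ℕ) : ℤ) + 1 - -((R / 2 : ℕ) : ℤ)).toNat : ℕ) := by
    exact_mod_cast (by omega : R ≤ (((R / 2 : ℕ) : ℤ) + 1 - -((R / 2 : ℕ) : ℤ)).toNat)
  nlinarith [sq_nonneg (R : ℝ)]

lemma tentMass_pos {R : ℕ} (hR : 0 < R) : 0 < tentMass R :=
  lt_of_lt_of_le (by positivity) (tentMass_ge R)

lemma sum_tent_sq (c : ℤ) (R : ℕ) :
    ∑ x ∈ Finset.Icc (c - R) (c + R), tent c R x ^ 2 = tentMass R := by
  refine Finset.sum_nbij' (fun x => x - c) (fun x => x + c) ?_ ?_ ?_ ?_ ?_ <;>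
    intro x hx
  · simp only [Finset.mem_Icc] at hx ⊢; omega
  · simp only [Finset.mem_Icc] at hx ⊢; omega
  · simp
  · simp
  · simp [tent]

lemma isProb_tentLaw (c : ℤ) {R : ℕ} (hR : 0 < R) : IsProb (tentLaw c R) := by
  refine ⟨fun x => by rw [tentLaw_apply]; have := tentMass_pos hR; positivity, ?_⟩
  rw [Finsupp.sum_of_support_subset (tentLaw c R)
    (Finsupp.support_onFinset_subset : (tentLaw c R).support ⊆ Finset.Icc (c - R) (c + R))
    (fun _ a => a) (fun _ _ => rfl)]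
  simp only [tentLaw_apply]
  rw [← Finset.sum_div, sum_tent_sq, div_self (tentMass_pos hR).ne']

lemma mapDomain_tentLaw (c s : ℤ) (R : ℕ) :
    (tentLaw c R).mapDomain (· + s) = tentLaw (c + s) R := by
  ext x
  have := Finsupp.mapDomain_apply (add_left_injective s) (tentLaw c R) (x - s)
  simp only [sub_add_cancel] at this
  rw [this, tentLaw_apply, tentLaw_apply, tent, tent]
  congr 6
  ring

lemma abs_tent_sub_le (c c' : ℤ) (R : ℕ) (x : ℤ) :
    |tent c R x - tent c' R x| ≤ |((c : ℝ) - c')| := by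
  have h : |max 0 ((R : ℤ) - |x - c|) - max 0 ((R : ℤ) - |x - c'|)| ≤ |c - c'| := by
    have h1 := abs_abs_sub_abs_le_abs_sub (x - c) (x - c')
    have e : x - c - (x - c') = -(c - c') := by ring
    rw [e, abs_neg] at h1
    rw [abs_le] at h1 ⊢
    constructor <;> omega
  unfold tent
  exact_mod_cast h

/-- Shifting a squared tent of radius `R` by `d` costs at most `8 d² / R²`. -/
theorem one_sub_bc_tentLaw_le (c c' : ℤ) {R : ℕ} (hR : 0 < R) :
    1 - bc (tentLaw c R) (tentLaw c' R) ≤ 8 * (((c : ℝ) - c') / R) ^ 2 := by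
  classical
  let U := Finset.Icc (c - R + 1) (c + R - 1) ∪ Finset.Icc (c' - R + 1) (c' + R - 1)
  have hU : ∀ d, (d = c ∨ d = c') → (tentLaw d R).support ⊆ U := fun d hd x hx => by
    have := abs_lt.mp (abs_sub_lt_of_mem_tentLaw hx)
    simp only [U, Finset.mem_union, Finset.mem_Icc]
    rcases hd with rfl | rfl <;> omega
  have key := sum_sqrt_sub_sq (isProb_tentLaw c hR) (isProb_tentLaw c' hR) (U := U)
    (hU c (Or.inl rfl)) (hU c' (Or.inr rfl))
  have hM := tentMass_pos hR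
  have hbound : ∀ x ∈ U, (Real.sqrt (tentLaw c R x) - Real.sqrt (tentLaw c' R x)) ^ 2 ≤
      ((c : ℝ) - c') ^ 2 / tentMass R := fun x _ => by
    rw [tentLaw_apply, tentLaw_apply, Real.sqrt_div (sq_nonneg _), Real.sqrt_div (sq_nonneg _),
      Real.sqrt_sq (tent_nonneg _ _ _), Real.sqrt_sq (tent_nonneg _ _ _), ← sub_div, div_pow,
      Real.sq_sqrt hM.le]
    exact div_le_div_of_nonneg_right
      (sq_le_sq.mpr (abs_tent_sub_le c c' R x)) hM.le
  have hcard : (U.card : ℝ) ≤ 4 * R := by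
    have : U.card ≤ 4 * R := (Finset.card_union_le _ _).trans (by simp only [Int.card_Icc]; omega)
    exact_mod_cast this
  have h1 := (Finset.sum_le_card_nsmul U _ _ hbound)
  rw [key, nsmul_eq_mul] at h1
  have hpos : 0 ≤ ((c : ℝ) - c') ^ 2 / tentMass R := by positivity
  have hR' : (0 : ℝ) < R := by exact_mod_cast hR
  have h2 : (R : ℝ) * (((c : ℝ) - c') ^ 2 / tentMass R) ≤ 4 * (((c : ℝ) - c') / R) ^ 2 := by
    calc (R : ℝ) * (((c : ℝ) - c') ^ 2 / tentMass R)
        ≤ R * (((c : ℝ) - c') ^ 2 / (R ^ 3 / 4)) := by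
          gcongr
          exact tentMass_ge R
      _ = _ := by field_simp
  nlinarith [mul_le_mul_of_nonneg_right hcard hpos]

/-- The product trick: if `f` turns the configuration of `θ` into that of the reindexed and
shifted variables, the two mixtures differ by at most `8 √(∑ (dᵢ/Rᵢ)²)`. -/
theorem l1_mixture_le {Ω Ω' : Type*} (f : Ω → Ω') (Φ : (κ → ℤ) → Ω) (Ψ : (ι → ℤ) → Ω')
    (c : κ → ℤ) (R : κ → ℕ) (c' : ι → ℤ) (σ : ι → κ) (hσ : Function.Injective σ)
    (s : ι → ℤ) (hR : ∀ k, 0 < R k)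
    (hf : ∀ θ : κ → ℤ, (∀ k, |θ k - c k| < R k) → f (Φ θ) = Ψ fun i => θ (σ i) + s i) :
    l1 (((piProb fun k => tentLaw (c k) (R k)).mapDomain Φ).mapDomain f -
      (piProb fun i => tentLaw (c' i) (R (σ i))).mapDomain Ψ) ≤
      8 * Real.sqrt (∑ i, ((((c (σ i) + s i : ℤ) : ℝ) - c' i) / R (σ i)) ^ 2) := by
  have hp : ∀ k, IsProb (tentLaw (c k) (R k)) := fun k => isProb_tentLaw _ (hR k)
  have e : ((piProb fun k => tentLaw (c k) (R k)).mapDomain Φ).mapDomain f =
      (piProb fun i => tentLaw (c (σ i) + s i) (R (σ i))).mapDomain Ψ := by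
    rw [← Finsupp.mapDomain_comp, Finsupp.mapDomain_congr (f := f ∘ Φ) (g := Ψ ∘ fun θ i => θ (σ i) + s i)
      (fun θ hθ => hf θ fun k => abs_sub_lt_of_mem_tentLaw (piProb_mem_support hθ k)),
      Finsupp.mapDomain_comp, mapDomain_piProb hp σ hσ fun i x => x + s i]
    simp only [mapDomain_tentLaw]
  rw [e]
  refine (l1_mapDomain_sub_le _ _ _).trans ((l1_piProb_sub_le
    (fun i => isProb_tentLaw _ (hR _)) (fun i => isProb_tentLaw _ (hR _))).trans ?_)
  calc 2 * Real.sqrt (2 * ∑ i, (1 - bc (tentLaw (c (σ i) + s i) (R (σ i))) (tentLaw (c' i) (R (σ i)))))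
      ≤ 2 * Real.sqrt (2 * ∑ i, 8 * ((((c (σ i) + s i : ℤ) : ℝ) - c' i) / R (σ i)) ^ 2) := by
        gcongr with i _
        exact one_sub_bc_tentLaw_le _ _ (hR _)
    _ = 8 * Real.sqrt (∑ i, ((((c (σ i) + s i : ℤ) : ℝ) - c' i) / R (σ i)) ^ 2) := by
        rw [← Finset.mul_sum, ← mul_assoc, show (2 : ℝ) * 8 = 4 ^ 2 by norm_num,
          Real.sqrt_mul (by norm_num), Real.sqrt_sq (by norm_num)]
        ring

end Vale.Agent.P196.Amen
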