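import Vale.Agent.P196.Sft.Full
import Vale.Agent.P196.Amen.Orbits
import Vale.Agent.P196.Amen.Product

/-!
# P196: anchors

An anchor gives every point of `S.Conf 0 × Fin m` a locally constant offset along one axis; the
full group transports the anchored position. A common stabiliser of a horizontal and a vertical
anchor has bounded orbits, so amenability follows from almost invariant measures on anchors.
Also here: the threshold rule and the reindexing of keys used to build those measures.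
-/

namespace Vale.Agent.P196.Amen

open Sft
open Sft.MacroSystem
open scoped symmDiff

variable {S : MacroSystem} {m : ℕ}

/-- An anchor along the axis `χ`. -/
def Anchor (S : MacroSystem) (m : ℕ) (_χ : Cell →+ ℤ) : Type := LocallyConstant (S.Pt m) ℤ

variable {χ : Cell →+ ℤ}

noncomputable instance : MulAction (S.fullGroup m) (Anchor S m χ) where
  smul g P := (⟨fun y => P.toFun ((g⁻¹).1 y) + χ (disp g⁻¹ y),
    (P.isLocallyConstant.comp_continuous (continuous_apply_fullGroup g⁻¹)).comp₂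
      (isDisp_disp g⁻¹).disp fun a v => a + χ v⟩ : LocallyConstant (S.Pt m) ℤ)
  one_smul P := by
    refine LocallyConstant.ext fun y => ?_
    show P.toFun (((1 : S.fullGroup m)⁻¹).1 y) + χ (disp (1 : S.fullGroup m)⁻¹ y) = _
    rw [inv_one, disp_one, map_zero, add_zero]
    rfl
  mul_smul g h P := by
    refine LocallyConstant.ext fun y => ?_
    show P.toFun (((g * h)⁻¹).1 y) + χ (disp (g * h)⁻¹ y) =
      P.toFun ((h⁻¹).1 ((g⁻¹).1 y)) + χ (disp h⁻¹ ((g⁻¹).1 y)) + χ (disp g⁻¹ y)
    rw [mul_inv_rev, disp_mul, map_add, ← add_assoc, Subgroup.coe_mul, Equiv.Perm.mul_apply]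

/-- The anchored position is transported. -/
theorem smul_apply_apply (g : S.fullGroup m) (P : Anchor S m χ) (x : S.Pt m) :
    (g • P : Anchor S m χ).toFun (g.1 x) = P.toFun x - χ (disp g x) := by
  show P.toFun ((g⁻¹).1 (g.1 x)) + χ (disp g⁻¹ (g.1 x)) = _
  rw [disp_inv_apply, map_neg, ← sub_eq_add_neg]
  congr 2
  exact Equiv.symm_apply_apply g.1 x

theorem smul_eq_of_forall {g : S.fullGroup m} {P Q : Anchor S m χ}
    (h : ∀ x, Q.toFun (g.1 x) = P.toFun x - χ (disp g x)) : g • P = Q :=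
  LocallyConstant.ext fun y => by
    obtain ⟨x, rfl⟩ := g.1.surjective y
    exact (smul_apply_apply g P x).trans (h x).symm

theorem apply_of_smul_eq {g : S.fullGroup m} {P : Anchor S m χ} (h : g • P = P) (x : S.Pt m) :
    P.toFun (g.1 x) = P.toFun x - χ (disp g x) := by
  conv_lhs => rw [← h]
  exact smul_apply_apply g P x

theorem exists_bound (P : Anchor S m χ) : ∃ B : ℕ, ∀ x, |P.toFun x| ≤ (B : ℤ) := by
  have hfin : (Set.range P.toFun).Finite := P.isLocallyConstant.range_finite
  refine ⟨hfin.toFinset.sup Int.natAbs, fun x => ?_⟩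
  have := Finset.le_sup (f := Int.natAbs) (hfin.mem_toFinset.2 ⟨x, rfl⟩)
  rw [abs_le]
  omega

/-- The horizontal axis. -/
abbrev axis₁ : Cell →+ ℤ := AddMonoidHom.fst ℤ ℤ

/-- The vertical axis. -/
abbrev axis₂ : Cell →+ ℤ := AddMonoidHom.snd ℤ ℤ

/-- Elements fixing both anchors move every point inside a set of bounded size. -/
theorem bounded_orbits (P : Anchor S m axis₁) (Q : Anchor S m axis₂) (K : Finset (S.fullGroup m))
    (h : ∀ g ∈ K, g • P = P ∧ g • Q = Q) :
    ∃ N : ℕ, ∀ x : S.Pt m, ∃ O : Finset (S.Pt m), O.card ≤ N ∧ x ∈ O ∧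
      ∀ g ∈ K, ∀ y ∈ O, g • y ∈ O := by
  classical
  obtain ⟨A, hA⟩ := exists_bound P
  obtain ⟨B, hB⟩ := exists_bound Q
  let box : Finset Cell := Finset.Icc (-(2 * A : ℤ)) (2 * A) ×ˢ Finset.Icc (-(2 * B : ℤ)) (2 * B)
  refine ⟨(box ×ˢ (Finset.univ : Finset (Fin m))).card, fun x => ?_⟩
  let O : Finset (S.Pt m) := ((box ×ˢ (Finset.univ : Finset (Fin m))).image fun p =>
    ((p.1 +ᵥ x.1, p.2) : S.Pt m)).filter fun y => ∃ v : Cell,
      y.1 = v +ᵥ x.1 ∧ P.toFun y = P.toFun x - v.1 ∧ Q.toFun y = Q.toFun x - v.2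
  refine ⟨O, (Finset.card_filter_le _ _).trans Finset.card_image_le, ?_, ?_⟩
  · simp only [O, Finset.mem_filter, Finset.mem_image, Finset.mem_product]
    exact ⟨⟨(0, x.2), ⟨Finset.mem_product.2 ⟨by simp, by simp⟩, Finset.mem_univ _⟩,
      Prod.ext (zero_vadd Cell x.1) rfl⟩, 0, (zero_vadd Cell x.1).symm, by simp, by simp⟩
  · intro g hg y hy
    obtain ⟨-, v, hv, hP, hQ⟩ := Finset.mem_filter.1 hy
    have e1 : (g.1 y).1 = (disp g y + v) +ᵥ x.1 := by rw [fst_apply, hv, add_vadd]
    have e2 : P.toFun (g.1 y) = P.toFun x - (disp g y + v).1 := by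
      rw [apply_of_smul_eq (h g hg).1 y, hP, Prod.fst_add, AddMonoidHom.coe_fst]; ring
    have e3 : Q.toFun (g.1 y) = Q.toFun x - (disp g y + v).2 := by
      rw [apply_of_smul_eq (h g hg).2 y, hQ, Prod.snd_add, AddMonoidHom.coe_snd]; ring
    refine Finset.mem_filter.2 ⟨Finset.mem_image.2 ⟨(disp g y + v, (g.1 y).2), ?_, ?_⟩,
      disp g y + v, e1, e2, e3⟩
    · have a1 := abs_le.1 (hA (g.1 y))
      have a2 := abs_le.1 (hA x)
      have b1 := abs_le.1 (hB (g.1 y))
      have b2 := abs_le.1 (hB x)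
      simp only [box, Finset.mem_product, Finset.mem_Icc, Finset.mem_univ, and_true]
      omega
    · exact Prod.ext e1.symm rfl

/-- The amenability criterion for the full group. -/
theorem folner_of_anchor_measures
    (h1 : AlmostInvOn (Set.univ : Set (S.fullGroup m)) (Anchor S m axis₁))
    (h2 : ∀ (P : Anchor S m axis₁) (K : Finset (S.fullGroup m)), (∀ g ∈ K, g • P = P) → ∀ ε : ℝ,
      0 < ε → ∃ μ : Anchor S m axis₂ →₀ ℝ, IsProb μ ∧
        ∀ g ∈ K, l1 (μ.mapDomain (g • ·) - μ) < ε)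
    {A : Type*} [Group A] [DecidableEq A] (f : A →* S.fullGroup m) (hf : Function.Injective f) :
    ∀ K : Finset A, ∀ ε : ℝ, 0 < ε → ∃ D : Finset A, D.Nonempty ∧
      ∀ g ∈ K, (((D.image (g * ·)) ∆ D).card : ℝ) < ε * D.card :=
  folner_two_stage (Y := S.Pt m) f hf h1
    (fun P K hK K' hK' ε hε => h2 P K' (fun g hg =>
      (Subgroup.closure_le (MulAction.stabilizer (S.fullGroup m) P)).2 hK (hK' hg)) ε hε)
    bounded_orbits

/-- The integer `x` read modulo `n`. -/
def fi (n : ℕ) [NeZero n] (x : ℤ) : Fin n :=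
  ⟨(x % (n : ℤ)).toNat, by
    have h : (0 : ℤ) < n := by exact_mod_cast NeZero.pos n
    have := Int.emod_lt_of_pos x h
    omega⟩

theorem fi_eq_iff {n : ℕ} [NeZero n] {x y : ℤ} :
    fi n x = fi n y ↔ x % (n : ℤ) = y % (n : ℤ) := by
  have h : (n : ℤ) ≠ 0 := by exact_mod_cast NeZero.ne n
  have := Int.emod_nonneg x h
  have := Int.emod_nonneg y h
  simp only [fi, Fin.mk.injEq]
  omega

theorem fi_inj {n : ℕ} [NeZero n] {x y : ℤ} (hx : 0 ≤ x) (hx' : x < n) (hy : 0 ≤ y) (hy' : y < n)
    (h : fi n x = fi n y) : x = y := by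
  rwa [fi_eq_iff, Int.emod_eq_of_lt hx hx', Int.emod_eq_of_lt hy hy'] at h

/-- Reindexing: if source and target key determine each other on the domain, and the source key
determines the shift, then a permutation of the keys and shifts of size at most `r` do it. -/
theorem exists_transport {A κ : Type*} [Fintype κ] (D : A → Prop) (src tgt : A → κ)
    (s : A → ℤ) (r : ℕ) (hr : ∀ a, D a → |s a| ≤ (r : ℤ))
    (det : ∀ a a', D a → D a' → src a = src a' → tgt a = tgt a' ∧ s a = s a')
    (inj : ∀ a a', D a → D a' → tgt a = tgt a' → src a = src a') :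
    ∃ (σ : Equiv.Perm κ) (s' : κ → ℤ), (∀ i, |s' i| ≤ (r : ℤ)) ∧
      ∀ a, D a → σ (tgt a) = src a ∧ s' (tgt a) = s a := by
  classical
  let p : κ → Prop := fun i => ∃ a, D a ∧ tgt a = i
  let q : κ → Prop := fun i => ∃ a, D a ∧ src a = i
  have hp : ∀ i : {i // p i}, D i.2.choose ∧ tgt i.2.choose = i.1 := fun i => i.2.choose_spec
  have hq : ∀ i : {i // q i}, D i.2.choose ∧ src i.2.choose = i.1 := fun i => i.2.choose_spec
  let e : {i // p i} ≃ {i // q i} :=
    { toFun := fun i => ⟨src i.2.choose, _, (hp i).1, rfl⟩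
      invFun := fun i => ⟨tgt i.2.choose, _, (hq i).1, rfl⟩
      left_inv := fun i => by
        apply Subtype.ext
        have h := hq (⟨src i.2.choose, _, (hp i).1, rfl⟩ : {i // q i})
        exact (det _ _ h.1 (hp i).1 h.2).1.trans (hp i).2
      right_inv := fun i => by
        apply Subtype.ext
        have h := hp (⟨tgt i.2.choose, _, (hq i).1, rfl⟩ : {i // p i})
        exact (inj _ _ h.1 (hq i).1 h.2).trans (hq i).2 }
  refine ⟨e.extendSubtype, fun i => if h : p i then s h.choose else 0, fun i => ?_, fun a ha => ?_⟩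
  · show |dite _ _ _| ≤ _
    split_ifs with h
    · exact hr _ h.choose_spec.1
    · simp
  · have h : p (tgt a) := ⟨a, ha, rfl⟩
    have hs : src h.choose = src a := inj _ _ h.choose_spec.1 ha h.choose_spec.2
    refine ⟨?_, ?_⟩
    · rw [Equiv.extendSubtype_apply_of_mem e _ h]
      exact hs
    · simp only [dif_pos h]
      exact (det _ _ h.choose_spec.1 ha hs).2

/-- The anchor cut out by a threshold is transported when the threshold is. -/
theorem threshold_anchor {M C R r u d K K' : ℤ} (hu : 0 ≤ u) (hu' : u < M) (hd : |d| ≤ r)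
    (hl : R + 4 * r ≤ C) (hh : C + R + 4 * r ≤ M) (hK : |K - C| < R) (hK' : |K' - C| < R + r)
    (hzone : |u - C| ≤ R + 2 * r → K' = K + d) :
    (if (u + d) % M < K' then -((u + d) % M) else M - (u + d) % M) =
      (if u < K then -u else M - u) - d := by
  rw [abs_le] at hd hzone
  rw [abs_lt] at hK hK'
  rcases lt_or_ge (u + d) 0 with h | h
  · have e : (u + d) % M = u + d + M := by
      rw [← Int.add_emod_right, Int.emod_eq_of_lt (by omega) (by omega)]
    rw [e, if_neg (by omega), if_pos (by omega)]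
    ring
  rcases lt_or_ge (u + d) M with h' | h'
  · rw [Int.emod_eq_of_lt h h']
    by_cases hz : -(R + 2 * r) ≤ u - C ∧ u - C ≤ R + 2 * r
    · have e := hzone hz
      by_cases hlt : u < K
      · rw [if_pos (by omega), if_pos hlt]; ring
      · rw [if_neg (by omega), if_neg hlt]; ring
    · by_cases hlt : u < K
      · rw [if_pos (by omega), if_pos hlt]; ring
      · rw [if_neg (by omega), if_neg hlt]; ring
  · have e : (u + d) % M = u + d - M := by
      rw [← Int.sub_emod_right, Int.emod_eq_of_lt (by omega) (by omega)]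
    rw [e, if_pos (by omega), if_neg (by omega)]
    ring

/-- Moving a mixture of anchors by a reindexing that preserves centres and widths. -/
theorem l1_anchor_mixture_le {κ : Type*} [Fintype κ] (g : S.fullGroup m)
    (Φ : (κ → ℤ) → Anchor S m χ) (c : κ → ℤ) (R : κ → ℕ) (hR : ∀ i, 0 < R i)
    (σ : Equiv.Perm κ) (hc : ∀ i, c (σ i) = c i) (hR' : ∀ i, R (σ i) = R i) (s : κ → ℤ)
    (h : ∀ θ : κ → ℤ, (∀ i, |θ i - c i| < R i) → g • Φ θ = Φ fun i => θ (σ i) + s i) :
    l1 (((piProb fun i => tentLaw (c i) (R i)).mapDomain Φ).mapDomain (g • ·) -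
        (piProb fun i => tentLaw (c i) (R i)).mapDomain Φ) ≤
      8 * Real.sqrt (∑ i, ((s i : ℝ) / R i) ^ 2) := by
  have := l1_mixture_le (g • ·) Φ Φ c R c σ σ.injective s hR h
  simpa [hc, hR'] using this

end Vale.Agent.P196.Amen
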