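import Vale.Agent.P196.Sft.Basic

/-!
# P196: the band of columns, seen from a point

In the columns of the band the colours of the children near a point depend on the column, on the
offset of the point from the nearest exceptional row and on that row's label, or only on the
column when no exceptional row is near.
-/

namespace Vale.Agent.P196.Amen

open Sft
open Sft.MacroSystem

variable {S : MacroSystem} {k c V : ℕ} (b : S.Band k c V)

/-- The exceptional rows of a parent, and the first row of the parent above. -/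
def exRows (w : Win (S.C (k + 1))) : Finset ℕ := insert (S.Z k) (b.exRow w)

/-- The label of an exceptional row. -/
def rowLab (w : Win (S.C (k + 1))) (j : ℕ) : Fin V :=
  if j = S.Z k then b.rowLabel w 0 else b.rowLabel w j

theorem exRows_le {w : Win (S.C (k + 1))} (hw : w ∈ S.W (k + 1)) {j : ℕ} (hj : j ∈ exRows b w) :
    j ≤ S.Z k := by
  rcases Finset.mem_insert.1 hj with rfl | h
  · exact le_rfl
  · exact (b.exRow_lt w hw j h).le

theorem exRows_gap {w : Win (S.C (k + 1))} (hw : w ∈ S.W (k + 1)) (hc : 0 < c) {j j' : ℕ}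
    (hj : j ∈ exRows b w) (hj' : j' ∈ exRows b w) (hlt : j < j') :
    S.Z k ≤ c * (j' - j) := by
  rcases Finset.mem_insert.1 hj with rfl | h
  · exact absurd (exRows_le b hw hj') (not_le.2 hlt)
  rcases Finset.mem_insert.1 hj' with rfl | h'
  · rcases Nat.eq_zero_or_pos j with rfl | hpos
    · simpa using Nat.le_mul_of_pos_left (S.Z k) hc
    · exact (b.exRow_sep w hw 0 (b.exRow_zero w hw) j h hpos).2
  · exact (b.exRow_sep w hw j h j' h' hlt).1

/-- Two exceptional rows at height at most `D` from one height are equal. -/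
theorem exRows_close {w : Win (S.C (k + 1))} (hw : w ∈ S.W (k + 1)) (hc : 0 < c) {Q v D : ℤ}
    (hQ : 0 ≤ Q) (hD : 2 * c * D < S.Z k * Q) {j j' : ℕ} (hj : j ∈ exRows b w)
    (hj' : j' ∈ exRows b w) (h : |v - j * Q| ≤ D) (h' : |v - j' * Q| ≤ D) : j = j' := by
  rw [abs_le] at h h'
  rcases lt_trichotomy j j' with hlt | heq | hlt
  · have := exRows_gap b hw hc hj hj' hlt
    have e : (S.Z k : ℤ) ≤ c * ((j' : ℤ) - j) := by
      rw [← Nat.cast_sub hlt.le]; exact_mod_cast this
    have h1 : (S.Z k : ℤ) * Q ≤ c * (((j' : ℤ) - j) * Q) := by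
      rw [← mul_assoc]; exact mul_le_mul_of_nonneg_right e hQ
    have h2 : (c : ℤ) * (((j' : ℤ) - j) * Q) ≤ c * (2 * D) :=
      mul_le_mul_of_nonneg_left (by linarith) (by positivity)
    linarith
  · exact heq
  · have := exRows_gap b hw hc hj' hj hlt
    have e : (S.Z k : ℤ) ≤ c * ((j : ℤ) - j') := by
      rw [← Nat.cast_sub hlt.le]; exact_mod_cast this
    have h1 : (S.Z k : ℤ) * Q ≤ c * (((j : ℤ) - j') * Q) := by
      rw [← mul_assoc]; exact mul_le_mul_of_nonneg_right e hQ
    have h2 : (c : ℤ) * (((j : ℤ) - j') * Q) ≤ c * (2 * D) :=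
      mul_le_mul_of_nonneg_left (by linarith) (by positivity)
    linarith

/-- The point is at height `tt` over an exceptional row labelled `lab`. -/
def Near (t : S.Conf 0) (tt : ℤ) (lab : Fin V) : Prop :=
  ∃ j ∈ exRows b (S.win k (S.tile k t)),
    (S.pos (k + 1) t).2 - j * (S.P k : ℤ) = tt ∧ rowLab b (S.win k (S.tile k t)) j = lab

theorem near_unique (hc : 0 < c) {D : ℤ} (hD : 2 * c * D < S.P (k + 1)) {t : S.Conf 0}
    {tt tt' : ℤ} {lab lab' : Fin V} (h : Near b t tt lab) (h' : Near b t tt' lab')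
    (ht : |tt| ≤ D) (ht' : |tt'| ≤ D) : tt = tt' ∧ lab = lab' := by
  obtain ⟨j, hj, e, el⟩ := h
  obtain ⟨j', hj', e', el'⟩ := h'
  have := exRows_close b (S.win_mem k _) hc (Q := (S.P k : ℤ)) (v := (S.pos (k + 1) t).2) (D := D)
    (Int.natCast_nonneg _) (by simpa [MacroSystem.P] using hD) hj hj' (by rwa [e]) (by rwa [e'])
  subst this
  exact ⟨e.symm.trans e', el.symm.trans el'⟩

theorem pos_succ (t : S.Conf 0) : S.pos (k + 1) t =
    ((S.res k (S.tile k t)).1.val * (S.P k : ℤ) + (S.pos k t).1,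
      (S.res k (S.tile k t)).2.val * (S.P k : ℤ) + (S.pos k t).2) := rfl

/-- A move inside the columns of the parent carries `Near` along. -/
theorem near_act (hc : 0 < c) {D : ℤ} (hD : 2 * c * D < S.P (k + 1)) {t : S.Conf 0} (v : Cell)
    (h1 : 0 ≤ (S.pos (k + 1) t).1 + v.1) (h1' : (S.pos (k + 1) t).1 + v.1 < S.P (k + 1))
    {tt : ℤ} {lab : Fin V} (h : Near b t tt lab) (htt : |tt| + |v.2| ≤ D) :
    Near b (S.act 0 v t) (tt + v.2) lab := by
  obtain ⟨j, hj, e, el⟩ := h
  obtain ⟨a, ha⟩ := b.rowLabel_zero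
  obtain ⟨⟨-, -⟩, hv0, hvM⟩ := S.pos_mem (k + 1) t
  have hZ : (0 : ℤ) < S.Z k := by exact_mod_cast S.zoom_pos k
  have hM : (S.P (k + 1) : ℤ) = S.Z k * S.P k := by simp [MacroSystem.P]
  have hQ : (0 : ℤ) ≤ (S.P k : ℤ) := Int.natCast_nonneg _
  set M : ℤ := (S.P (k + 1) : ℤ) with hMdef
  have hwin : S.win k (S.tile k (S.act 0 v t)) =
      windowAt (S.act (k + 1) (((S.pos (k + 1) t).1 + v.1) / M,
        ((S.pos (k + 1) t).2 + v.2) / M) (S.tile (k + 1) t)).1 (-1, -1) := by
    show windowAt (S.tile (k + 1) (S.act 0 v t)).1 (-1, -1) = _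
    rw [tile_act]
  have hpos : (S.pos (k + 1) (S.act 0 v t)).2 = ((S.pos (k + 1) t).2 + v.2) % M :=
    congrArg Prod.snd (S.pos_act (k + 1) v t)
  rw [Int.ediv_eq_zero_of_lt h1 h1'] at hwin
  have hw := S.win_mem k (S.tile k t)
  rcases lt_or_ge ((S.pos (k + 1) t).2 + v.2) 0 with hneg | hpos'
  · -- the row is the first row of the parent
    have hj0 : j = 0 := by
      refine exRows_close b hw hc (v := (S.pos (k + 1) t).2) hQ (by rwa [← hM]) hj
        (Finset.mem_insert_of_mem (b.exRow_zero _ hw)) (by rw [e]; linarith [abs_nonneg v.2]) ?_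
      rw [abs_le]
      constructor <;> push_cast <;> linarith [neg_abs_le v.2, abs_nonneg tt, le_abs_self v.2]
    subst hj0
    refine ⟨S.Z k, Finset.mem_insert_self _ _, ?_, ?_⟩
    · rw [hpos, ← Int.add_emod_right, Int.emod_eq_of_lt (by
        linarith [neg_abs_le v.2, abs_nonneg tt, le_abs_self v.2, mul_nonneg (Int.natCast_nonneg c)
          (abs_nonneg tt), mul_le_mul_of_nonneg_right (show (1 : ℤ) ≤ c by exact_mod_cast hc)
          ((abs_nonneg tt).trans (by linarith [abs_nonneg v.2] : |tt| ≤ D))]) (by linarith)]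
      push_cast at e ⊢
      linarith
    · rw [rowLab, if_pos rfl, ha _ (S.win_mem k _), ← el, rowLab,
        if_neg (S.zoom_pos k).ne, ha _ hw]
  rcases lt_or_ge ((S.pos (k + 1) t).2 + v.2) M with hlt | hge
  · rw [Int.ediv_eq_zero_of_lt hpos' hlt, show ((0, 0) : Cell) = 0 from rfl, act_zero] at hwin
    refine ⟨j, ?_, ?_, ?_⟩
    · rw [hwin]; exact hj
    · rw [hpos, Int.emod_eq_of_lt hpos' hlt]; linarith
    · rw [hwin]; exact el
  · -- the row is the first row of the parent above
    have hjZ : j = S.Z k := by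
      refine exRows_close b hw hc (v := (S.pos (k + 1) t).2) hQ (by rwa [← hM]) hj
        (Finset.mem_insert_self _ _) (by rw [e]; linarith [abs_nonneg v.2]) ?_
      rw [abs_le]
      constructor <;> linarith [le_abs_self v.2, abs_nonneg tt, abs_nonneg v.2]
    subst hjZ
    refine ⟨0, Finset.mem_insert_of_mem (b.exRow_zero _ (S.win_mem k _)), ?_, ?_⟩
    · rw [hpos, ← Int.sub_emod_right, Int.emod_eq_of_lt (by linarith) (by
        linarith [le_abs_self v.2, abs_nonneg tt, mul_le_mul_of_nonneg_right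
          (show (1 : ℤ) ≤ c by exact_mod_cast hc)
          ((abs_nonneg tt).trans (by linarith [abs_nonneg v.2] : |tt| ≤ D))])]
      push_cast
      linarith
    · rw [rowLab, if_neg (S.zoom_pos k).ne, ha _ (S.win_mem k _), ← el, rowLab, if_pos rfl,
        ha _ hw]

/-- The colour of a child in a band column, near an exceptional row or away from all. -/
theorem colour_band (hc : 0 < c) (hZ : 8 * c ≤ S.Z k) (T : S.Conf k) (d : Cell) {i : ℕ}
    (hi : ((S.res k T).1.val : ℤ) + d.1 = i) (hlo : b.lo ≤ i) (hhi : i < b.hi) (hd : -3 ≤ d.2)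
    (hd' : d.2 ≤ 1) :
    (∀ j ∈ exRows b (S.win k T), |((S.res k T).2.val : ℤ) + d.2 - j| ≤ 2 →
      T.1 d = b.rowPat i ((S.res k T).2.val + d.2 - j) (rowLab b (S.win k T) j)) ∧
    ((∀ j ∈ exRows b (S.win k T), 2 < |((S.res k T).2.val : ℤ) + d.2 - j|) →
      T.1 d = b.blank i) := by
  have hw := S.win_mem k T
  have hw' := S.win_mem k (S.act k d T)
  have hiZ : i < S.Z k := hhi.trans_le b.hi_le
  have hz8 := S.zoom_ge k
  obtain ⟨a, ha⟩ := b.rowLabel_zero
  rw [apply_eq]
  set J : ℤ := ((S.res k T).2.val : ℤ) + d.2 with hJ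
  have hr1 : ((S.res k (S.act k d T)).1.val : ℤ) = i := by
    rw [res_fst_act, hi, Int.emod_eq_of_lt (by omega) (by omega)]
  have hr1' : (S.res k (S.act k d T)).1.val = i := by exact_mod_cast hr1
  rw [hr1']
  have hr2 := S.res_snd_act k d T
  rw [← hJ] at hr2
  have hT := (S.res k T).2.isLt
  rcases lt_or_ge J 0 with hneg | hpos
  · -- the parent below
    rw [← Int.add_emod_right, Int.emod_eq_of_lt (by omega) (by omega)] at hr2
    refine ⟨fun j hj hjd => ?_, fun hfar => ?_⟩
    · rw [abs_le] at hjd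
      have hj0 : j = 0 := by
        rcases Finset.mem_insert.1 hj with rfl | h
        · omega
        by_contra hne
        have := (b.exRow_sep _ hw 0 (b.exRow_zero _ hw) j h (by omega)).1
        have := Nat.mul_le_mul_left c (show j - 0 ≤ 1 by omega)
        omega
      subst hj0
      rw [b.draw_top _ hw' i _ hlo hhi (S.res k (S.act k d T)).2.isLt (by omega) _ hw, rowLab,
        if_neg (S.zoom_pos k).ne]
      congr 1
      push_cast
      omega
    · have h0 := hfar 0 (Finset.mem_insert_of_mem (b.exRow_zero _ hw))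
      push_cast at h0
      rw [lt_abs] at h0
      refine b.draw_blank _ hw' i _ hlo hhi (S.res k (S.act k d T)).2.isLt (by omega) fun j hj => ?_
      rcases Nat.eq_zero_or_pos j with rfl | hjp
      · omega
      have := (b.exRow_sep _ hw' 0 (b.exRow_zero _ hw') j hj hjp).2
      have hjlt := b.exRow_lt _ hw' j hj
      have : 8 ≤ S.Z k - j := by
        by_contra hh
        nlinarith [Nat.mul_le_mul_left c (show S.Z k - j ≤ 7 by omega)]
      omega
  rcases lt_or_ge J (S.Z k) with hlt | hge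
  · rw [Int.emod_eq_of_lt hpos hlt] at hr2
    have hwin : S.win k (S.act k d T) = S.win k T := by
      unfold MacroSystem.win
      rw [S.par_act_of_mem k d T (by omega) (by omega) hpos hlt]
    rw [hwin]
    refine ⟨fun j hj hjd => ?_, fun hfar => ?_⟩
    · rw [abs_le] at hjd
      rcases Finset.mem_insert.1 hj with rfl | h
      · rw [b.draw_top _ hw i _ hlo hhi (by omega) (by omega) _ hw, rowLab, if_pos rfl, hr2]
      · rw [b.draw_row _ hw i _ j h hlo hhi (by omega) (by omega) (by omega), rowLab,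
          if_neg (b.exRow_lt _ hw j h).ne, hr2]
    · have hZfar := hfar _ (Finset.mem_insert_self _ _)
      rw [lt_abs] at hZfar
      refine b.draw_blank _ hw i _ hlo hhi (by omega) (by omega) fun j hj => ?_
      have := hfar j (Finset.mem_insert_of_mem hj)
      rw [lt_abs] at this
      omega
  · -- the first row of the parent above
    have hJZ : J = S.Z k := by omega
    rw [hJZ, Int.emod_self] at hr2
    have hzero : (S.res k (S.act k d T)).2.val = 0 := by exact_mod_cast hr2
    rw [hzero]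
    refine ⟨fun j hj hjd => ?_, fun hfar => ?_⟩
    · rw [abs_le] at hjd
      have hjZ : j = S.Z k := by
        have hle := exRows_le b hw hj
        by_contra hne
        have := exRows_gap b hw hc hj (Finset.mem_insert_self _ _) (by omega)
        nlinarith [Nat.mul_le_mul_left c (show S.Z k - j ≤ 7 by omega)]
      subst hjZ
      rw [b.draw_row _ hw' i 0 0 (b.exRow_zero _ hw') hlo hhi (S.zoom_pos k) (by omega) (by omega),
        rowLab, if_pos rfl, ha _ hw', ha _ hw]
      congr 1
      omega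
    · have h := hfar _ (Finset.mem_insert_self _ _)
      rw [lt_abs] at h
      omega

/-- Two points in the band agree near the origin if they are in the same column, at the same
height in their tiles, and both over the same row datum or both away from all exceptional rows. -/
theorem congr_band (hc : 0 < c) (hZ : 8 * c ≤ S.Z k) {D : ℤ} (hD : 2 * c * D < S.P (k + 1))
    (hD' : 6 * (S.P k : ℤ) ≤ D) {t t' : S.Conf 0}
    (hu : (S.pos (k + 1) t).1 = (S.pos (k + 1) t').1)
    (hlo : ((b.lo : ℤ) + 3) * S.P k ≤ (S.pos (k + 1) t).1)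
    (hhi : (S.pos (k + 1) t).1 < ((b.hi : ℤ) - 1) * S.P k)
    (hv : (S.pos (k + 1) t).2 % (S.P k : ℤ) = (S.pos (k + 1) t').2 % (S.P k : ℤ))
    (h : (∃ tt lab, |tt| ≤ D ∧ Near b t tt lab ∧ Near b t' tt lab) ∨
      ((∀ tt lab, Near b t tt lab → 6 * (S.P k : ℤ) < |tt|) ∧
        ∀ tt lab, Near b t' tt lab → 6 * (S.P k : ℤ) < |tt|))
    (v : Cell) (h1 : |v.1| ≤ (S.P k : ℤ)) (h2 : |v.2| ≤ (S.P k : ℤ)) : t.1 v = t'.1 v := by
  have hQ : (0 : ℤ) < S.P k := by exact_mod_cast S.P_pos k
  have hm : ∀ i p : ℤ, 0 ≤ p → p < S.P k →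
      (i * S.P k + p) / (S.P k : ℤ) = i ∧ (i * S.P k + p) % (S.P k : ℤ) = p := fun i p h h' =>
    ⟨by rw [add_comm, Int.add_mul_ediv_right _ _ hQ.ne', Int.ediv_eq_zero_of_lt h h', zero_add],
      by rw [add_comm, Int.add_mul_emod_self_right, Int.emod_eq_of_lt h h']⟩
  obtain ⟨⟨a1, a2⟩, a3, a4⟩ := S.pos_mem k t
  obtain ⟨⟨b1, b2⟩, b3, b4⟩ := S.pos_mem k t'
  rw [pos_succ, pos_succ] at hu hv
  rw [pos_succ] at hlo hhi
  simp only at hu hv hlo hhi
  rw [(hm _ _ a3 a4).2, (hm _ _ b3 b4).2] at hv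
  have hi : ((S.res k (S.tile k t)).1.val : ℤ) = (S.res k (S.tile k t')).1.val := by
    rw [← (hm ((S.res k (S.tile k t)).1.val) _ a1 a2).1, hu, (hm _ _ b1 b2).1]
  have hp : (S.pos k t).1 = (S.pos k t').1 := by rw [hi] at hu; linarith
  refine S.apply_congr k t t' (Prod.ext hp hv) (fun d d1 d2 d3 d4 => ?_) v h1 h2
  have ilo : (b.lo : ℤ) + 3 ≤ (S.res k (S.tile k t)).1.val := by nlinarith
  have ihi : ((S.res k (S.tile k t)).1.val : ℤ) < (b.hi : ℤ) - 1 := by nlinarith
  obtain ⟨i, hie⟩ : ∃ i : ℕ, ((S.res k (S.tile k t)).1.val : ℤ) + d.1 = i :=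
    ⟨((S.res k (S.tile k t)).1.val + d.1).toNat, by omega⟩
  obtain ⟨n1, f1⟩ := colour_band b hc hZ (S.tile k t) d hie (by omega) (by omega) d3 d4
  obtain ⟨n2, f2⟩ := colour_band b hc hZ (S.tile k t') d (hi ▸ hie) (by omega) (by omega) d3 d4
  -- a row within two of row `res + d.2` is within `6 P k` of the point
  have close : ∀ s : S.Conf 0, 0 ≤ (S.pos k s).2 → (S.pos k s).2 < S.P k → ∀ j : ℕ,
      |((S.res k (S.tile k s)).2.val : ℤ) + d.2 - j| ≤ 2 →
      |(S.pos (k + 1) s).2 - j * (S.P k : ℤ)| ≤ 6 * (S.P k : ℤ) := by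
    intro s s1 s2 j hj
    rw [abs_le] at hj ⊢
    rw [pos_succ]
    simp only
    have u1 : -5 ≤ ((S.res k (S.tile k s)).2.val : ℤ) - j := by omega
    have u2 : ((S.res k (S.tile k s)).2.val : ℤ) - j ≤ 5 := by omega
    constructor <;> nlinarith
  rcases h with ⟨tt, lab, htt, ⟨j, hj, e, el⟩, ⟨j', hj', e', el'⟩⟩ | ⟨g, g'⟩
  · have hoff : ((S.res k (S.tile k t)).2.val : ℤ) - j = (S.res k (S.tile k t')).2.val - j' := by
      rw [pos_succ] at e e'
      simp only at e e'
      apply mul_right_cancel₀ hQ.ne'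
      linarith
    by_cases hjd : |((S.res k (S.tile k t)).2.val : ℤ) + d.2 - j| ≤ 2
    · rw [n1 j hj hjd, n2 j' hj' (by
        convert hjd using 2; linarith), el, el']
      congr 1
      linarith
    · rw [f1 fun q hq => ?_, f2 fun q hq => ?_]
      · by_contra hq2
        have := exRows_close b (S.win_mem k _) hc hQ.le
          (by simpa [MacroSystem.P] using hD) hj' hq (by rw [e']; exact htt)
          ((close t' b3 b4 q (not_lt.1 hq2)).trans hD')
        subst this
        apply hjd
        rw [show ((S.res k (S.tile k t)).2.val : ℤ) + d.2 - j =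
          (S.res k (S.tile k t')).2.val + d.2 - j' by linarith]
        exact not_lt.1 hq2
      · by_contra hq2
        have := exRows_close b (S.win_mem k _) hc hQ.le
          (by simpa [MacroSystem.P] using hD) hj hq (by rw [e]; exact htt)
          ((close t a3 a4 q (not_lt.1 hq2)).trans hD')
        subst this
        exact hjd (not_lt.1 hq2)
  · rw [f1 fun q hq => ?_, f2 fun q hq => ?_]
    · by_contra hq2
      exact absurd (g' _ _ ⟨q, hq, rfl, rfl⟩) (not_lt.2 (close t' b3 b4 q (not_lt.1 hq2)))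
    · by_contra hq2
      exact absurd (g _ _ ⟨q, hq, rfl, rfl⟩) (not_lt.2 (close t a3 a4 q (not_lt.1 hq2)))

end Vale.Agent.P196.Amen
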