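import Vale.Agent.P196.Amen.Anchor
import Vale.Agent.P196.Amen.Rows

/-!
# P196: almost invariant measures on horizontal anchors

At a deep level the anchor of a point is the left edge of its parent or the next one, decided by a
random threshold in the band of columns. The thresholds are attached to periodic classes away from
the exceptional rows and to classes by offset near them; a third family of thresholds makes the
switch between the two systems.
-/

namespace Vale.Agent.P196.Amen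

open Sft
open Sft.MacroSystem

variable {S : MacroSystem} {m k c V : ℕ} (b : S.Band k c V)

instance (n : ℕ) : NeZero (S.P n) := ⟨(S.P_pos n).ne'⟩

/-- Integers of absolute value at most `D` are determined by their residue mod `2 D + 1`. -/
theorem fi_inj_abs {n : ℕ} [NeZero n] {D x y : ℤ} (hn : 2 * D < n) (hx : |x| ≤ D) (hy : |y| ≤ D)
    (h : fi n x = fi n y) : x = y := by
  rw [abs_le] at hx hy
  have h' := fi_eq_iff.1 h
  have : fi n (x + D) = fi n (y + D) := fi_eq_iff.2 (by rw [Int.add_emod, h', ← Int.add_emod])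
  have := fi_inj (by omega) (by omega) (by omega) (by omega) this
  omega

/-- The thresholds: periodic classes, classes by offset, and the switch. -/
abbrev Key₁ (S : MacroSystem) (m k V e : ℕ) : Type :=
  (Fin m × Fin (S.P (k + 1)) × Fin (S.P k)) ⊕
    ((Fin m × Fin (S.P (k + 1)) × Fin (32 * e + 1) × Fin V) ⊕
      (Fin m × Fin (S.P (k + 1)) × Fin (S.P k) × Fin V × Bool))

variable (e : ℕ)

/-- The class of a point away from the exceptional rows. -/
noncomputable def keyU (x : S.Pt m) : Key₁ S m k V e :=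
  Sum.inl (x.2, fi _ (S.pos (k + 1) x.1).1, fi _ (S.pos (k + 1) x.1).2)

/-- The class of a point at height `tt` over an exceptional row labelled `lab`. -/
noncomputable def keyV (x : S.Pt m) (tt : ℤ) (lab : Fin V) : Key₁ S m k V e :=
  Sum.inr (Sum.inl (x.2, fi _ (S.pos (k + 1) x.1).1, fi _ tt, lab))

/-- The class deciding between the two systems. -/
noncomputable def keyT (x : S.Pt m) (tt : ℤ) (lab : Fin V) : Key₁ S m k V e :=
  Sum.inr (Sum.inr (x.2, fi _ (S.pos (k + 1) x.1).1, fi _ (S.pos (k + 1) x.1).2, lab,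
    decide (0 ≤ tt)))

open Classical in
/-- Choose between two thresholds by the datum of the exceptional row near a point. -/
noncomputable def thrAux (N : ℤ → Fin V → Prop) (wU : ℤ) (wT wV : ℤ → Fin V → ℤ) : ℤ :=
  if h : ∃ p : ℤ × Fin V, |p.1| ≤ 16 * (e : ℤ) ∧ N p.1 p.2 then
    if |h.choose.1| ≤ wT h.choose.1 h.choose.2 then wV h.choose.1 h.choose.2 else wU
  else wU

/-- The threshold that a point compares itself with. -/
noncomputable def thr (θ : Key₁ S m k V e → ℤ) (x : S.Pt m) : ℤ :=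
  thrAux e (Near b x.1) (θ (keyU e x)) (fun tt lab => θ (keyT e x tt lab))
    fun tt lab => θ (keyV e x tt lab)

theorem thr_of_far (θ : Key₁ S m k V e → ℤ) (x : S.Pt m)
    (h : ∀ tt lab, Near b x.1 tt lab → 16 * (e : ℤ) < |tt|) : thr b e θ x = θ (keyU e x) :=
  dif_neg fun ⟨p, hp, hp'⟩ => absurd hp (not_le.2 (h _ _ hp'))

theorem thr_of_near (hc : 0 < c) (hD : 2 * c * (16 * (e : ℤ)) < S.P (k + 1))
    (θ : Key₁ S m k V e → ℤ) {x : S.Pt m} {tt : ℤ} {lab : Fin V} (htt : |tt| ≤ 16 * (e : ℤ))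
    (h : Near b x.1 tt lab) :
    thr b e θ x = if |tt| ≤ θ (keyT e x tt lab) then θ (keyV e x tt lab) else θ (keyU e x) := by
  have hex : ∃ p : ℤ × Fin V, |p.1| ≤ 16 * (e : ℤ) ∧ Near b x.1 p.1 p.2 := ⟨(tt, lab), htt, h⟩
  obtain ⟨e1, e2⟩ := near_unique b hc hD hex.choose_spec.2 h hex.choose_spec.1 htt
  rw [thr, thrAux, dif_pos hex, e1, e2]

/-- The anchor of a configuration of thresholds. -/
noncomputable def anchor₁ (θ : Key₁ S m k V e → ℤ) : Anchor S m axis₁ :=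
  (⟨fun x => if (S.pos (k + 1) x.1).1 < thr b e θ x then -(S.pos (k + 1) x.1).1
      else S.P (k + 1) - (S.pos (k + 1) x.1).1, by
    refine (IsLocallyConstant.iff_eventually_eq _).2 fun x => ?_
    have h1 := (IsLocallyConstant.iff_eventually_eq _).1
      ((S.isLocallyConstant_pos (k + 1)).1.comp_continuous
        (continuous_fst : Continuous (Prod.fst : S.Pt m → S.Conf 0))) x
    have h2 := (IsLocallyConstant.iff_eventually_eq _).1
      ((S.isLocallyConstant_win k).comp_continuous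
        ((S.isLocallyConstant_pos k).2.comp continuous_fst) :
        IsLocallyConstant fun y : S.Pt m => S.win k (S.tile k y.1)) x
    have h3 := (IsLocallyConstant.iff_eventually_eq _).1
      ((IsLocallyConstant.iff_continuous _).2
        (continuous_snd : Continuous (Prod.snd : S.Pt m → Fin m))) x
    filter_upwards [h1, h2, h3] with y e1 e2 e3
    simp only [Function.comp_apply] at e1 e2
    have hN : Near b y.1 = Near b x.1 := by
      funext tt lab
      unfold Near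
      rw [e1, e2]
    have hthr : thr b e θ y = thr b e θ x := by
      simp only [thr, keyU, keyV, keyT, hN, e1, e3]
    rw [hthr, e1]⟩ : LocallyConstant (S.Pt m) ℤ)

/-- The side conditions on the parameters of a level. -/
structure Params₁ (e C R r : ℕ) : Prop where
  c_pos : 0 < c
  zoom : 8 * c ≤ S.Z k
  radius : r ≤ S.P k
  e_ge : 8 * (S.P k : ℤ) ≤ e
  e_le : 2 * c * (16 * (e : ℤ)) < S.P (k + 1)
  R_pos : 0 < R
  left : ((b.lo : ℤ) + 3) * S.P k + R + 4 * r ≤ C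
  right : (C : ℤ) + R + 4 * r < ((b.hi : ℤ) - 1) * S.P k

/-- The centre of a threshold. -/
def cen₁ (e C : ℕ) : Key₁ S m k V e → ℤ :=
  Sum.elim (fun _ => (C : ℤ)) (Sum.elim (fun _ => (C : ℤ)) fun _ => 6 * (e : ℤ))

/-- The width of a threshold. -/
def rad₁ (e R : ℕ) : Key₁ S m k V e → ℕ :=
  Sum.elim (fun _ => R) (Sum.elim (fun _ => R) fun _ => e)

variable {b e}

/-- `g` reads at most the cells at distance `r` and moves by at most `r`. -/
def Reads (g : S.fullGroup m) (r : ℕ) : Prop :=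
  (∀ x, |(disp g x).1| ≤ (r : ℤ) ∧ |(disp g x).2| ≤ (r : ℤ)) ∧
    ∀ (t t' : S.Conf 0) (a : Fin m),
      (∀ v : Cell, |v.1| ≤ (r : ℤ) → |v.2| ≤ (r : ℤ) → t.1 v = t'.1 v) →
      disp g (t, a) = disp g (t', a) ∧ (g.1 (t, a)).2 = (g.1 (t', a)).2

theorem exists_reads (g : S.fullGroup m) : ∃ r, Reads g r := exists_radius_fullGroup g

theorem Reads.mono {g : S.fullGroup m} {r r' : ℕ} (h : Reads g r) (hr : r ≤ r') : Reads g r' := by
  have hr' : (r : ℤ) ≤ r' := by exact_mod_cast hr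
  exact ⟨fun x => ⟨(h.1 x).1.trans hr', (h.1 x).2.trans hr'⟩,
    fun t t' a ht => h.2 t t' a fun v h1 h2 => ht v (h1.trans hr') (h2.trans hr')⟩

/-- Two points of the band with the same data are moved alike. -/
theorem disp_det {C R r : ℕ} (hP : Params₁ b e C R r) {g : S.fullGroup m} (hg : Reads g r)
    {x x' : S.Pt m} (ha : x.2 = x'.2) (hu : (S.pos (k + 1) x.1).1 = (S.pos (k + 1) x'.1).1)
    (hz : |(S.pos (k + 1) x.1).1 - C| ≤ (R : ℤ) + 3 * r)
    (hv : (S.pos (k + 1) x.1).2 % (S.P k : ℤ) = (S.pos (k + 1) x'.1).2 % (S.P k : ℤ))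
    (h : (∃ tt lab, |tt| ≤ 16 * (e : ℤ) ∧ Near b x.1 tt lab ∧ Near b x'.1 tt lab) ∨
      ((∀ tt lab, Near b x.1 tt lab → 6 * (S.P k : ℤ) < |tt|) ∧
        ∀ tt lab, Near b x'.1 tt lab → 6 * (S.P k : ℤ) < |tt|)) :
    disp g x = disp g x' ∧ (g.1 x).2 = (g.1 x').2 := by
  obtain ⟨t, a⟩ := x
  obtain ⟨t', a'⟩ := x'
  simp only at ha
  subst ha
  have hQ : (0 : ℤ) < S.P k := by exact_mod_cast S.P_pos k
  have hrQ : (r : ℤ) ≤ S.P k := by exact_mod_cast hP.radius
  have := hP.left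
  have := hP.right
  rw [abs_le] at hz
  refine hg.2 t t' a fun v h1 h2 => congr_band b hP.c_pos hP.zoom hP.e_le ?_ hu ?_ ?_ hv h v
    (h1.trans hrQ) (h2.trans hrQ)
  · linarith [hP.e_ge]
  · simp only at hz ⊢; linarith
  · simp only at hz ⊢
    have : (r : ℤ) ≥ 0 := Int.natCast_nonneg r
    have : (0 : ℤ) < R := by exact_mod_cast hP.R_pos
    linarith

/-- A move from the zone stays in the parent's columns and in the wider zone. -/
theorem move {C R r : ℕ} (hP : Params₁ b e C R r) {g : S.fullGroup m} (hg : Reads g r)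
    {x : S.Pt m} (hz : |(S.pos (k + 1) x.1).1 - C| ≤ (R : ℤ) + 2 * r) :
    (S.pos (k + 1) (g.1 x).1).1 = (S.pos (k + 1) x.1).1 + (disp g x).1 ∧
    |(S.pos (k + 1) (g.1 x).1).1 - C| ≤ (R : ℤ) + 3 * r ∧
    (S.pos (k + 1) (g.1 x).1).2 % (S.P k : ℤ) =
      ((S.pos (k + 1) x.1).2 + (disp g x).2) % (S.P k : ℤ) ∧
    (∀ tt lab, |tt| + r ≤ 16 * (e : ℤ) → Near b x.1 tt lab →
      Near b (g.1 x).1 (tt + (disp g x).2) lab) ∧
    (∀ tt lab, |tt| + r ≤ 16 * (e : ℤ) → Near b (g.1 x).1 tt lab →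
      Near b x.1 (tt - (disp g x).2) lab) := by
  obtain ⟨⟨a1, a2⟩, -, -⟩ := S.pos_mem (k + 1) x.1
  have hl := hP.left
  have hh := hP.right
  have hd := (hg.1 x).1
  have hd2 := (hg.1 x).2
  rw [abs_le] at hz hd
  have hlo : (0 : ℤ) ≤ ((b.lo : ℤ) + 3) * S.P k := by positivity
  have hhi : ((b.hi : ℤ) - 1) * S.P k ≤ S.P (k + 1) := by
    have : (b.hi : ℤ) ≤ S.Z k := by exact_mod_cast b.hi_le
    rw [MacroSystem.P, Nat.cast_mul]
    gcongr
    omega
  have h1 : 0 ≤ (S.pos (k + 1) x.1).1 + (disp g x).1 := by linarith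
  have h1' : (S.pos (k + 1) x.1).1 + (disp g x).1 < S.P (k + 1) := by
    have : (0 : ℤ) < R := by exact_mod_cast hP.R_pos
    linarith
  have hy : (g.1 x).1 = S.act 0 (disp g x) x.1 := fst_apply g x
  have hpy : S.pos (k + 1) (g.1 x).1 = (((S.pos (k + 1) x.1).1 + (disp g x).1) % (S.P (k + 1) : ℤ),
      ((S.pos (k + 1) x.1).2 + (disp g x).2) % (S.P (k + 1) : ℤ)) := by rw [hy, pos_act]
  have e1 : (S.pos (k + 1) (g.1 x).1).1 = (S.pos (k + 1) x.1).1 + (disp g x).1 := by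
    rw [hpy]; exact Int.emod_eq_of_lt h1 h1'
  refine ⟨e1, by rw [e1, abs_le]; constructor <;> linarith, ?_, fun tt lab htt h => ?_,
    fun tt lab htt h => ?_⟩
  · rw [hpy]
    exact Int.emod_emod_of_dvd _ ⟨(S.Z k : ℤ), by rw [MacroSystem.P, Nat.cast_mul]; ring⟩
  · rw [hy]
    exact near_act b hP.c_pos hP.e_le _ h1 h1' h (by linarith)
  · have := near_act b hP.c_pos hP.e_le (-(disp g x))
      (by rw [e1, Prod.fst_neg]; linarith) (by rw [e1, Prod.fst_neg]; linarith)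
      h (by rw [Prod.snd_neg, abs_neg]; linarith)
    rw [hy, act_act, neg_add_cancel, act_zero, Prod.snd_neg, ← sub_eq_add_neg] at this
    exact this

/-- Equal classes give equal horizontal positions. -/
theorem eq_of_fi {x x' : S.Pt m}
    (h : fi (S.P (k + 1)) (S.pos (k + 1) x.1).1 = fi (S.P (k + 1)) (S.pos (k + 1) x'.1).1) :
    (S.pos (k + 1) x.1).1 = (S.pos (k + 1) x'.1).1 :=
  fi_inj (S.pos_mem (k + 1) x.1).1.1 (S.pos_mem (k + 1) x.1).1.2 (S.pos_mem (k + 1) x'.1).1.1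
    (S.pos_mem (k + 1) x'.1).1.2 h

theorem emod_of_near {t : S.Conf 0} {tt : ℤ} {lab : Fin V} (h : Near b t tt lab) :
    (S.pos (k + 1) t).2 % (S.P k : ℤ) = tt % (S.P k : ℤ) := by
  obtain ⟨j, -, hj, -⟩ := h
  rw [← hj, Int.sub_mul_emod_self_right]

/-- The reindexing of thresholds that a member of the full group induces. -/
theorem exists_reindex₁ {C R r : ℕ} (hP : Params₁ b e C R r) (g : S.fullGroup m)
    (hg : Reads g r) (hg' : Reads g⁻¹ r) :
    ∃ (σ : Equiv.Perm (Key₁ S m k V e)) (s : Key₁ S m k V e → ℤ), (∀ i, |s i| ≤ (r : ℤ)) ∧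
      (∀ i, cen₁ e C (σ i) = cen₁ e C i) ∧ (∀ i, rad₁ e R (σ i) = rad₁ e R i) ∧
      (∀ x : S.Pt m, |(S.pos (k + 1) x.1).1 - C| ≤ (R : ℤ) + 2 * r →
        (∀ tt lab, Near b x.1 tt lab → 7 * (S.P k : ℤ) < |tt|) →
        σ (keyU e (g.1 x)) = keyU e x ∧ s (keyU e (g.1 x)) = (disp g x).1) ∧
      (∀ (x : S.Pt m) tt lab, |(S.pos (k + 1) x.1).1 - C| ≤ (R : ℤ) + 2 * r →
        Near b x.1 tt lab → |tt| ≤ 8 * (e : ℤ) →
        σ (keyV e (g.1 x) (tt + (disp g x).2) lab) = keyV e x tt lab ∧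
          s (keyV e (g.1 x) (tt + (disp g x).2) lab) = (disp g x).1) ∧
      (∀ (x : S.Pt m) tt lab, |(S.pos (k + 1) x.1).1 - C| ≤ (R : ℤ) + 2 * r →
        Near b x.1 tt lab → 4 * (e : ℤ) ≤ |tt| → |tt| ≤ 8 * (e : ℤ) →
        σ (keyT e (g.1 x) (tt + (disp g x).2) lab) = keyT e x tt lab ∧
          s (keyT e (g.1 x) (tt + (disp g x).2) lab) =
            if 0 ≤ tt then (disp g x).2 else -(disp g x).2) := by
  have hQ : (0 : ℤ) < S.P k := by exact_mod_cast S.P_pos k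
  have hrQ : (r : ℤ) ≤ S.P k := by exact_mod_cast hP.radius
  have he := hP.e_ge
  have hback : ∀ x, g⁻¹.1 (g.1 x) = x := fun x => Equiv.symm_apply_apply g.1 x
  -- periodic classes
  let A := S.Pt m
  let uSrc : A → Fin m × Fin (S.P (k + 1)) × Fin (S.P k) := fun x =>
    (x.2, fi _ (S.pos (k + 1) x.1).1, fi _ (S.pos (k + 1) x.1).2)
  obtain ⟨σU, sU, hsU, hU⟩ := exists_transport
    (fun x : A => |(S.pos (k + 1) x.1).1 - C| ≤ (R : ℤ) + 2 * r ∧
      ∀ tt lab, Near b x.1 tt lab → 7 * (S.P k : ℤ) < |tt|)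
    uSrc (fun x => uSrc (g.1 x)) (fun x => (disp g x).1) r (fun x _ => (hg.1 x).1)
    (fun x x' hx hx' h => by
      simp only [uSrc, Prod.mk.injEq] at h ⊢
      obtain ⟨ha, hu, hv⟩ := h
      have hu' := eq_of_fi hu
      obtain ⟨hd, hl⟩ := disp_det hP hg ha hu' (hx.1.trans (by linarith)) (fi_eq_iff.1 hv)
        (Or.inr ⟨fun tt lab h => by linarith [hx.2 tt lab h],
          fun tt lab h => by linarith [hx'.2 tt lab h]⟩)
      obtain ⟨m1, -, m2, -, -⟩ := move hP hg hx.1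
      obtain ⟨m1', -, m2', -, -⟩ := move hP hg hx'.1
      refine ⟨⟨hl, by rw [m1, m1', hu', hd], fi_eq_iff.2 ?_⟩, by rw [hd]⟩
      rw [m2, m2', hd, Int.add_emod, fi_eq_iff.1 hv, ← Int.add_emod])
    (fun x x' hx hx' h => by
      simp only [uSrc, Prod.mk.injEq] at h ⊢
      obtain ⟨ha, hu, hv⟩ := h
      obtain ⟨m1, mz, m2, -, mb⟩ := move hP hg hx.1
      obtain ⟨m1', -, m2', -, mb'⟩ := move hP hg hx'.1
      have hu' := eq_of_fi hu
      have far : ∀ (z : A), (∀ tt lab, Near b z.1 tt lab → 7 * (S.P k : ℤ) < |tt|) →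
          (∀ tt lab, |tt| + r ≤ 16 * (e : ℤ) → Near b (g.1 z).1 tt lab →
            Near b z.1 (tt - (disp g z).2) lab) →
          ∀ tt lab, Near b (g.1 z).1 tt lab → 6 * (S.P k : ℤ) < |tt| := by
        intro z hz hb tt lab h
        by_contra hle
        have := hz _ _ (hb tt lab (by linarith) h)
        linarith [abs_sub tt (disp g z).2, (hg.1 z).2]
      obtain ⟨hd, hl⟩ := disp_det hP hg' ha hu' mz (fi_eq_iff.1 hv)
        (Or.inr ⟨far x hx.2 mb, far x' hx'.2 mb'⟩)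
      rw [disp_inv_apply, disp_inv_apply, neg_inj] at hd
      rw [hback, hback] at hl
      rw [m1, m1', hd] at hu'
      refine ⟨hl, by rw [add_right_cancel hu'], fi_eq_iff.2 ?_⟩
      have hv' := fi_eq_iff.1 hv
      rw [m2, m2', hd] at hv'
      exact Int.emod_eq_emod_iff_emod_sub_eq_zero.2 (by
        have := Int.emod_eq_emod_iff_emod_sub_eq_zero.1 hv'
        rwa [show (S.pos (k + 1) x.1).2 + (disp g x').2 -
          ((S.pos (k + 1) x'.1).2 + (disp g x').2) =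
          (S.pos (k + 1) x.1).2 - (S.pos (k + 1) x'.1).2 by ring] at this))
  -- classes by offset
  let B := A × ℤ × Fin V
  let n₁ : ℕ := 32 * e + 1
  let vKey : A → ℤ → Fin V → Fin m × Fin (S.P (k + 1)) × Fin (32 * e + 1) × Fin V :=
    fun x tt lab => (x.2, fi _ (S.pos (k + 1) x.1).1, fi _ tt, lab)
  have hn : 2 * (16 * (e : ℤ)) < ((32 * e + 1 : ℕ) : ℤ) := by push_cast; linarith
  obtain ⟨σV, sV, hsV, hV⟩ := exists_transport
    (fun p : B => |(S.pos (k + 1) p.1.1).1 - C| ≤ (R : ℤ) + 2 * r ∧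
      Near b p.1.1 p.2.1 p.2.2 ∧ |p.2.1| ≤ 8 * (e : ℤ))
    (fun p => vKey p.1 p.2.1 p.2.2)
    (fun p => vKey (g.1 p.1) (p.2.1 + (disp g p.1).2) p.2.2)
    (fun p => (disp g p.1).1) r (fun p _ => (hg.1 p.1).1)
    (fun ⟨x, tt, lab⟩ ⟨x', tt', lab'⟩ hx hx' h => by
      simp only [vKey, Prod.mk.injEq] at h hx hx' ⊢
      obtain ⟨ha, hu, ht, hl'⟩ := h
      subst hl'
      have hu' := eq_of_fi hu
      have htt : tt = tt' := fi_inj_abs hn (hx.2.2.trans (by linarith))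
        (hx'.2.2.trans (by linarith)) ht
      subst htt
      obtain ⟨hd, hl⟩ := disp_det hP hg ha hu' (hx.1.trans (by linarith))
        ((emod_of_near hx.2.1).trans (emod_of_near hx'.2.1).symm)
        (Or.inl ⟨tt, lab, hx.2.2.trans (by linarith), hx.2.1, hx'.2.1⟩)
      obtain ⟨m1, -⟩ := move hP hg hx.1
      obtain ⟨m1', -⟩ := move hP hg hx'.1
      exact ⟨⟨hl, by rw [m1, m1', hu', hd], by rw [hd], rfl⟩, by rw [hd]⟩)
    (fun ⟨x, tt, lab⟩ ⟨x', tt', lab'⟩ hx hx' h => by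
      simp only [vKey, Prod.mk.injEq] at h hx hx' ⊢
      obtain ⟨ha, hu, ht, hl'⟩ := h
      subst hl'
      obtain ⟨m1, mz, -, mf, -⟩ := move hP hg hx.1
      obtain ⟨m1', -, -, mf', -⟩ := move hP hg hx'.1
      have hu' := eq_of_fi hu
      have b1 := (hg.1 x).2
      have b2 := (hg.1 x').2
      have n1 := mf tt lab (by linarith [hx.2.2]) hx.2.1
      have n2 := mf' tt' lab (by linarith [hx'.2.2]) hx'.2.1
      have i1 : |tt + (disp g x).2| ≤ 16 * (e : ℤ) :=
        (abs_add_le _ _).trans (by linarith [hx.2.2])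
      have i2 : |tt' + (disp g x').2| ≤ 16 * (e : ℤ) :=
        (abs_add_le _ _).trans (by linarith [hx'.2.2])
      have htt := fi_inj_abs hn i1 i2 ht
      rw [← htt] at n2
      obtain ⟨hd, hl⟩ := disp_det hP hg' ha hu' mz
        ((emod_of_near n1).trans (emod_of_near n2).symm) (Or.inl ⟨_, _, i1, n1, n2⟩)
      rw [disp_inv_apply, disp_inv_apply, neg_inj] at hd
      rw [hback, hback] at hl
      rw [m1, m1', hd] at hu'
      rw [hd] at htt
      exact ⟨hl, by rw [add_right_cancel hu'], by rw [add_right_cancel htt], rfl⟩)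
  -- the switch
  let tKey : A → ℤ → Fin V → Fin m × Fin (S.P (k + 1)) × Fin (S.P k) × Fin V × Bool :=
    fun x tt lab => (x.2, fi _ (S.pos (k + 1) x.1).1, fi _ (S.pos (k + 1) x.1).2, lab,
      decide (0 ≤ tt))
  have far : ∀ (z : S.Conf 0) (tt : ℤ) (lab : Fin V), Near b z tt lab → 3 * (e : ℤ) ≤ |tt| →
      |tt| ≤ 16 * (e : ℤ) → ∀ tt' lab', Near b z tt' lab' → 6 * (S.P k : ℤ) < |tt'| := by
    intro z tt lab h h1 h2 tt' lab' h'
    by_contra hle
    obtain ⟨rfl, -⟩ := near_unique b hP.c_pos hP.e_le h h' h2 (by linarith)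
    linarith
  have side : ∀ tt d : ℤ, 4 * (e : ℤ) ≤ |tt| → |d| ≤ r →
      decide (0 ≤ tt + d) = decide (0 ≤ tt) := by
    intro tt d h1 h2
    rw [abs_le] at h2
    rcases le_or_gt 0 tt with h | h
    · rw [abs_of_nonneg h] at h1
      simp [h, show 0 ≤ tt + d by linarith]
    · rw [abs_of_neg h] at h1
      simp [not_le.2 h, show ¬ 0 ≤ tt + d by linarith]
  obtain ⟨σT, sT, hsT, hT⟩ := exists_transport
    (fun p : B => |(S.pos (k + 1) p.1.1).1 - C| ≤ (R : ℤ) + 2 * r ∧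
      Near b p.1.1 p.2.1 p.2.2 ∧ 4 * (e : ℤ) ≤ |p.2.1| ∧ |p.2.1| ≤ 8 * (e : ℤ))
    (fun p => tKey p.1 p.2.1 p.2.2)
    (fun p => tKey (g.1 p.1) (p.2.1 + (disp g p.1).2) p.2.2)
    (fun p => if 0 ≤ p.2.1 then (disp g p.1).2 else -(disp g p.1).2) r
    (fun p _ => by split_ifs <;> simp [abs_neg, (hg.1 p.1).2])
    (fun ⟨x, tt, lab⟩ ⟨x', tt', lab'⟩ hx hx' h => by
      simp only [tKey, Prod.mk.injEq] at h hx hx' ⊢
      obtain ⟨ha, hu, hv, hl', hs⟩ := h
      subst hl'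
      have hu' := eq_of_fi hu
      obtain ⟨hd, hl⟩ := disp_det hP hg ha hu' (hx.1.trans (by linarith)) (fi_eq_iff.1 hv)
        (Or.inr ⟨far _ _ _ hx.2.1 (by linarith [hx.2.2.1]) (by linarith [hx.2.2.2]),
          far _ _ _ hx'.2.1 (by linarith [hx'.2.2.1]) (by linarith [hx'.2.2.2])⟩)
      obtain ⟨m1, -, m2, -⟩ := move hP hg hx.1
      obtain ⟨m1', -, m2', -⟩ := move hP hg hx'.1
      refine ⟨⟨hl, by rw [m1, m1', hu', hd], fi_eq_iff.2 ?_, rfl, ?_⟩, ?_⟩
      · rw [m2, m2', hd, Int.add_emod, fi_eq_iff.1 hv, ← Int.add_emod]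
      · rw [side _ _ hx.2.2.1 (hg.1 x).2, side _ _ hx'.2.2.1 (hg.1 x').2, hs]
      · rw [decide_eq_decide] at hs
        simp only [hs, hd])
    (fun ⟨x, tt, lab⟩ ⟨x', tt', lab'⟩ hx hx' h => by
      simp only [tKey, Prod.mk.injEq] at h hx hx' ⊢
      obtain ⟨ha, hu, hv, hl', hs⟩ := h
      subst hl'
      obtain ⟨m1, mz, m2, mf, -⟩ := move hP hg hx.1
      obtain ⟨m1', -, m2', mf', -⟩ := move hP hg hx'.1
      have hu' := eq_of_fi hu
      have far' : ∀ (z : A) (u : ℤ), |u| + r ≤ 16 * (e : ℤ) → 4 * (e : ℤ) ≤ |u| →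
          Near b (g.1 z).1 (u + (disp g z).2) lab →
          ∀ tt' lab', Near b (g.1 z).1 tt' lab' → 6 * (S.P k : ℤ) < |tt'| := fun z u h1 h2 h3 =>
        far _ _ _ h3 (by
          have a1 := abs_sub_abs_le_abs_sub u (-(disp g z).2)
          rw [abs_neg, sub_neg_eq_add] at a1
          have := abs_add_le (u + (disp g z).2) (-(disp g z).2)
          rw [add_neg_cancel_right, abs_neg] at this
          linarith [(hg.1 z).2])
          ((abs_add_le _ _).trans (by linarith [(hg.1 z).2]))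
      obtain ⟨hd, hl⟩ := disp_det hP hg' ha hu' mz (fi_eq_iff.1 hv)
        (Or.inr ⟨far' x tt (by linarith [hx.2.2.2]) hx.2.2.1
            (mf tt lab (by linarith [hx.2.2.2]) hx.2.1),
          far' x' tt' (by linarith [hx'.2.2.2]) hx'.2.2.1
            (mf' tt' lab (by linarith [hx'.2.2.2]) hx'.2.1)⟩)
      rw [disp_inv_apply, disp_inv_apply, neg_inj] at hd
      rw [hback, hback] at hl
      rw [m1, m1', hd] at hu'
      refine ⟨hl, by rw [add_right_cancel hu'], fi_eq_iff.2 ?_, rfl, ?_⟩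
      · have hv' := fi_eq_iff.1 hv
        rw [m2, m2', hd] at hv'
        exact Int.emod_eq_emod_iff_emod_sub_eq_zero.2 (by
          have := Int.emod_eq_emod_iff_emod_sub_eq_zero.1 hv'
          rwa [show (S.pos (k + 1) x.1).2 + (disp g x').2 -
            ((S.pos (k + 1) x'.1).2 + (disp g x').2) =
            (S.pos (k + 1) x.1).2 - (S.pos (k + 1) x'.1).2 by ring] at this)
      · rw [side _ _ hx.2.2.1 (hg.1 x).2, side _ _ hx'.2.2.1 (hg.1 x').2] at hs
        exact hs)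
  refine ⟨σU.sumCongr (σV.sumCongr σT), Sum.elim sU (Sum.elim sV sT), ?_, ?_, ?_,
    fun x h1 h2 => ?_, fun x tt lab h1 h2 h3 => ?_, fun x tt lab h1 h2 h3 h4 => ?_⟩
  · rintro (i | i | i)
    · exact hsU i
    · exact hsV i
    · exact hsT i
  · rintro (i | i | i) <;> rfl
  · rintro (i | i | i) <;> rfl
  · exact ⟨congrArg Sum.inl (hU x ⟨h1, h2⟩).1, (hU x ⟨h1, h2⟩).2⟩
  · exact ⟨congrArg (Sum.inr ∘ Sum.inl) (hV (x, tt, lab) ⟨h1, h2, h3⟩).1,
      (hV (x, tt, lab) ⟨h1, h2, h3⟩).2⟩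
  · exact ⟨congrArg (Sum.inr ∘ Sum.inr) (hT (x, tt, lab) ⟨h1, h2, h3, h4⟩).1,
      (hT (x, tt, lab) ⟨h1, h2, h3, h4⟩).2⟩

/-- The anchor of moved thresholds is the moved anchor. -/
theorem smul_anchor₁ {C R r : ℕ} (hP : Params₁ b e C R r) (g : S.fullGroup m) (hg : Reads g r)
    (σ : Equiv.Perm (Key₁ S m k V e)) (s : Key₁ S m k V e → ℤ) (hs : ∀ i, |s i| ≤ (r : ℤ))
    (hc : ∀ i, cen₁ e C (σ i) = cen₁ e C i) (hR : ∀ i, rad₁ e R (σ i) = rad₁ e R i)
    (hU : ∀ x : S.Pt m, |(S.pos (k + 1) x.1).1 - C| ≤ (R : ℤ) + 2 * r →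
      (∀ tt lab, Near b x.1 tt lab → 7 * (S.P k : ℤ) < |tt|) →
      σ (keyU e (g.1 x)) = keyU e x ∧ s (keyU e (g.1 x)) = (disp g x).1)
    (hV : ∀ (x : S.Pt m) tt lab, |(S.pos (k + 1) x.1).1 - C| ≤ (R : ℤ) + 2 * r →
      Near b x.1 tt lab → |tt| ≤ 8 * (e : ℤ) →
      σ (keyV e (g.1 x) (tt + (disp g x).2) lab) = keyV e x tt lab ∧
        s (keyV e (g.1 x) (tt + (disp g x).2) lab) = (disp g x).1)
    (hT : ∀ (x : S.Pt m) tt lab, |(S.pos (k + 1) x.1).1 - C| ≤ (R : ℤ) + 2 * r →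
      Near b x.1 tt lab → 4 * (e : ℤ) ≤ |tt| → |tt| ≤ 8 * (e : ℤ) →
      σ (keyT e (g.1 x) (tt + (disp g x).2) lab) = keyT e x tt lab ∧
        s (keyT e (g.1 x) (tt + (disp g x).2) lab) =
          if 0 ≤ tt then (disp g x).2 else -(disp g x).2)
    (θ : Key₁ S m k V e → ℤ) (hθ : ∀ i, |θ i - cen₁ e C i| < rad₁ e R i) :
    g • anchor₁ b e θ = anchor₁ b e fun i => θ (σ i) + s i := by
  set θ' : Key₁ S m k V e → ℤ := fun i => θ (σ i) + s i with hθ'
  have hb : ∀ i, |θ' i - cen₁ e C i| < (rad₁ e R i : ℤ) + r := fun i => by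
    have h1 := hθ (σ i)
    rw [hc, hR] at h1
    calc |θ' i - cen₁ e C i| = |(θ (σ i) - cen₁ e C i) + s i| := by rw [hθ']; ring_nf
      _ ≤ |θ (σ i) - cen₁ e C i| + |s i| := abs_add_le _ _
      _ < _ := by linarith [hs i]
  refine smul_eq_of_forall fun x => ?_
  obtain ⟨⟨u0, u1⟩, -, -⟩ := S.pos_mem (k + 1) x.1
  have hd := hg.1 x
  have hy : (g.1 x).1 = S.act 0 (disp g x) x.1 := fst_apply g x
  show (if (S.pos (k + 1) (g.1 x).1).1 < thr b e θ' (g.1 x) then -(S.pos (k + 1) (g.1 x).1).1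
      else (S.P (k + 1) : ℤ) - (S.pos (k + 1) (g.1 x).1).1) =
    (if (S.pos (k + 1) x.1).1 < thr b e θ x then -(S.pos (k + 1) x.1).1
      else (S.P (k + 1) : ℤ) - (S.pos (k + 1) x.1).1) - (disp g x).1
  rw [hy, pos_act]
  have hK : |thr b e θ x - C| < (R : ℤ) := by
    rw [thr, thrAux]
    split_ifs <;>
      exact hθ _
  have hK' : |thr b e θ' (g.1 x) - C| < (R : ℤ) + r := by
    rw [thr, thrAux]
    split_ifs <;>
      exact hb _
  have hlo : (0 : ℤ) ≤ ((b.lo : ℤ) + 3) * S.P k := by positivity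
  have hhi : ((b.hi : ℤ) - 1) * S.P k ≤ S.P (k + 1) := by
    have : (b.hi : ℤ) ≤ S.Z k := by exact_mod_cast b.hi_le
    rw [MacroSystem.P, Nat.cast_mul]
    gcongr
    omega
  have hrQ : (r : ℤ) ≤ S.P k := by exact_mod_cast hP.radius
  have he := hP.e_ge
  have hr0 : (0 : ℤ) ≤ r := Int.natCast_nonneg r
  have hQ0 : (0 : ℤ) < S.P k := by exact_mod_cast S.P_pos k
  refine threshold_anchor u0 u1 hd.1 (by linarith [hP.left]) (by linarith [hP.right]) hK hK'
    fun hz => ?_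
  obtain ⟨-, -, -, mf, mb⟩ := move hP hg hz
  by_cases hnear : ∃ tt lab, |tt| ≤ 8 * (e : ℤ) ∧ Near b x.1 tt lab
  · obtain ⟨tt, lab, htt, hN⟩ := hnear
    have hN' := mf tt lab (by linarith) hN
    have hlt := (abs_add_le tt (disp g x).2).trans (add_le_add le_rfl hd.2)
    rw [thr_of_near b e hP.c_pos hP.e_le θ (by linarith) hN,
      thr_of_near b e hP.c_pos hP.e_le θ' (by linarith) hN']
    have hT1 : |θ (keyT e x tt lab) - 6 * (e : ℤ)| < (e : ℤ) := hθ _
    have hT2 : |θ' (keyT e (g.1 x) (tt + (disp g x).2) lab) - 6 * (e : ℤ)| < (e : ℤ) + r := hb _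
    rw [abs_lt] at hT1 hT2
    have hVe : θ' (keyV e (g.1 x) (tt + (disp g x).2) lab) =
        θ (keyV e x tt lab) + (disp g x).1 := by
      simp only [hθ', (hV x tt lab hz hN htt).1, (hV x tt lab hz hN htt).2]
    rcases lt_or_ge |tt| (4 * (e : ℤ)) with hs' | hs'
    · rw [if_pos (by linarith), if_pos (by linarith), hVe]
    · have hTe : θ' (keyT e (g.1 x) (tt + (disp g x).2) lab) = θ (keyT e x tt lab) +
          if 0 ≤ tt then (disp g x).2 else -(disp g x).2 := by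
        simp only [hθ', (hT x tt lab hz hN hs' htt).1, (hT x tt lab hz hN hs' htt).2]
      have hd2 := abs_le.1 hd.2
      have habs : |tt + (disp g x).2| = |tt| + if 0 ≤ tt then (disp g x).2 else -(disp g x).2 := by
        rcases le_or_gt 0 tt with h | h
        · rw [abs_of_nonneg h] at hs' ⊢
          rw [if_pos h, abs_of_nonneg (by linarith)]
        · rw [abs_of_neg h] at hs' ⊢
          rw [if_neg (not_le.2 h), abs_of_neg (by linarith)]
          ring
      have hU' := hU x hz fun t' l' h' => by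
        by_contra hle
        obtain ⟨rfl, -⟩ := near_unique b hP.c_pos hP.e_le hN h' (by linarith) (by linarith)
        linarith
      rw [hTe, habs]
      by_cases hsw : |tt| ≤ θ (keyT e x tt lab)
      · rw [if_pos hsw, if_pos (by linarith), hVe]
      · rw [if_neg hsw, if_neg (by linarith)]
        simp only [hθ', hU'.1, hU'.2]
  · have hnear' : ∀ tt lab, Near b x.1 tt lab → 8 * (e : ℤ) < |tt| := fun tt lab h =>
      lt_of_not_ge fun hle => hnear ⟨tt, lab, hle, h⟩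
    have hU' := hU x hz fun tt lab h => by linarith [hnear' tt lab h]
    have e1 : thr b e θ x = θ (keyU e x) := by
      by_cases h : ∃ tt lab, |tt| ≤ 16 * (e : ℤ) ∧ Near b x.1 tt lab
      · obtain ⟨tt, lab, htt, hN⟩ := h
        rw [thr_of_near b e hP.c_pos hP.e_le θ htt hN, if_neg]
        have hT1 : |θ (keyT e x tt lab) - 6 * (e : ℤ)| < (e : ℤ) := hθ _
        rw [abs_lt] at hT1
        linarith [hnear' tt lab hN]
      · exact thr_of_far b e θ x fun tt lab hN => lt_of_not_ge fun hle => h ⟨tt, lab, hle, hN⟩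
    have e2 : thr b e θ' (g.1 x) = θ' (keyU e (g.1 x)) := by
      by_cases h : ∃ tt lab, |tt| ≤ 16 * (e : ℤ) ∧ Near b (g.1 x).1 tt lab
      · obtain ⟨tt, lab, htt, hN⟩ := h
        rw [thr_of_near b e hP.c_pos hP.e_le θ' htt hN, if_neg]
        have hT2 : |θ' (keyT e (g.1 x) tt lab) - 6 * (e : ℤ)| < (e : ℤ) + r := hb _
        rw [abs_lt] at hT2
        intro hle
        have := hnear' _ _ (mb tt lab (by linarith) hN)
        linarith [abs_sub tt (disp g x).2]
      · exact thr_of_far b e θ' _ fun tt lab hN => lt_of_not_ge fun hle => h ⟨tt, lab, hle, hN⟩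
    rw [e1, e2]
    simp only [hθ', hU'.1, hU'.2]

/-- The squared cost of the thresholds of a level. -/
theorem sum_cost₁ (R r : ℕ) (s : Key₁ S m k V e → ℤ) (hs : ∀ i, |s i| ≤ (r : ℤ)) :
    ∑ i, ((s i : ℝ) / (rad₁ (S := S) (m := m) (k := k) (V := V) e R i : ℝ)) ^ 2 ≤
      m * S.P (k + 1) * S.P k * ((r : ℝ) / R) ^ 2 +
        m * S.P (k + 1) * (32 * e + 1) * V * ((r : ℝ) / R) ^ 2 +
        2 * m * S.P (k + 1) * S.P k * V * ((r : ℝ) / e) ^ 2 := by
  have hb : ∀ (i : Key₁ S m k V e) (d : ℝ),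
      0 ≤ d → ((s i : ℝ) / d) ^ 2 ≤ ((r : ℝ) / d) ^ 2 := fun i d hd => by
    rw [div_pow, div_pow]
    refine div_le_div_of_nonneg_right ?_ (sq_nonneg d)
    refine sq_le_sq.2 ?_
    rw [Nat.abs_cast]
    exact_mod_cast hs i
  refine (Finset.sum_le_sum fun i _ => hb i _ (Nat.cast_nonneg _)).trans_eq ?_
  simp only [Fintype.sum_sum_type, rad₁, Sum.elim_inl, Sum.elim_inr, Finset.sum_const,
    Finset.card_univ, Fintype.card_prod, Fintype.card_fin, Fintype.card_bool, nsmul_eq_mul]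
  push_cast
  ring

/-- The arithmetic of the cost. -/
theorem cost_le (c m V L r Z Q e R δ : ℝ) (hc : 0 < c) (hm : 0 ≤ m) (hV : 0 ≤ V) (hL : 0 < L)
    (hZ : 0 < Z) (hQ : 0 < Q) (hR : 0 < R) (he : 1 ≤ e) (hRM : Z * Q ≤ 8 * c * R)
    (he1 : e * L ≤ Z * Q) (he2 : Z * Q ≤ 2 * L * e)
    (h1 : 2112 * c ^ 2 * m * V * r ^ 2 * 2 ≤ δ * L)
    (h2 : (64 * c ^ 2 * m * r ^ 2 + 8 * L ^ 2 * m * V * r ^ 2) * 2 ≤ δ * Z) :
    m * (Z * Q) * Q * (r / R) ^ 2 + m * (Z * Q) * (32 * e + 1) * V * (r / R) ^ 2 +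
      2 * m * (Z * Q) * Q * V * (r / e) ^ 2 ≤ δ := by
  have hZQ : 0 < Z * Q := mul_pos hZ hQ
  have hRi : 1 / R ≤ 8 * c / (Z * Q) := by
    rw [div_le_div_iff₀ hR hZQ]; linarith
  have hei : 1 / e ≤ 2 * L / (Z * Q) := by
    rw [div_le_div_iff₀ (by linarith) hZQ]; linarith
  have hq : (r / R) ^ 2 ≤ r ^ 2 * (8 * c / (Z * Q)) ^ 2 := by
    rw [div_eq_mul_one_div, mul_pow]
    exact mul_le_mul_of_nonneg_left (pow_le_pow_left₀ (by positivity) hRi 2) (sq_nonneg r)
  have hq' : (r / e) ^ 2 ≤ r ^ 2 * (2 * L / (Z * Q)) ^ 2 := by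
    rw [div_eq_mul_one_div, mul_pow]
    exact mul_le_mul_of_nonneg_left (pow_le_pow_left₀ (by positivity) hei 2) (sq_nonneg r)
  have h33 : 32 * e + 1 ≤ 33 * (Z * Q / L) := by
    have : e ≤ Z * Q / L := by rw [le_div_iff₀ hL]; exact he1
    linarith
  calc _ ≤ m * (Z * Q) * Q * (r ^ 2 * (8 * c / (Z * Q)) ^ 2) +
        m * (Z * Q) * (33 * (Z * Q / L)) * V * (r ^ 2 * (8 * c / (Z * Q)) ^ 2) +
        2 * m * (Z * Q) * Q * V * (r ^ 2 * (2 * L / (Z * Q)) ^ 2) := by gcongr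
    _ = (64 * c ^ 2 * m * r ^ 2 + 8 * L ^ 2 * m * V * r ^ 2) / Z +
        2112 * c ^ 2 * m * V * r ^ 2 / L := by
      field_simp
      ring
    _ ≤ δ / 2 + δ / 2 := by
      refine add_le_add ?_ ?_
      · rw [div_le_iff₀ hZ]; linarith
      · rw [div_le_iff₀ hL]; linarith
    _ = δ := by ring

/-- Almost invariant probabilities on horizontal anchors. -/
theorem almostInv₁ (H : S.HasBands) :
    AlmostInvOn (Set.univ : Set (S.fullGroup m)) (Anchor S m axis₁) := by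
  classical
  intro K _ ε hε
  choose ρ hρ using fun g : S.fullGroup m => exists_reads g
  let r : ℕ := K.sup fun g => max (ρ g) (ρ g⁻¹)
  have hr : ∀ g ∈ K, Reads g r ∧ Reads g⁻¹ r := fun g hg => by
    have := Finset.le_sup (f := fun g => max (ρ g) (ρ g⁻¹)) hg
    exact ⟨(hρ g).mono (le_of_max_le_left this), (hρ g⁻¹).mono (le_of_max_le_right this)⟩
  set δ : ℝ := (ε / 16) ^ 2 with hδ
  have hδ0 : 0 < δ := by positivity
  have hc : (0 : ℝ) < H.c := by exact_mod_cast H.c_pos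
  obtain ⟨L, hL⟩ := exists_nat_gt (max (33 * (H.c : ℝ))
    (2112 * H.c ^ 2 * m * H.V * r ^ 2 / δ * 2))
  have hL1 : 33 * (H.c : ℝ) < L := (le_max_left _ _).trans_lt hL
  have hL2 : 2112 * (H.c : ℝ) ^ 2 * m * H.V * r ^ 2 / δ * 2 < L := (le_max_right _ _).trans_lt hL
  have hLc : 33 * H.c < L := by exact_mod_cast hL1
  obtain ⟨N, hN⟩ := exists_nat_gt ((64 * (H.c : ℝ) ^ 2 * m * r ^ 2 +
    8 * L ^ 2 * m * H.V * r ^ 2) / δ * 2)
  obtain ⟨k₀, hk₀⟩ := H.zoom_tendsto (max N (max (32 * H.c) (16 * L)))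
  set k := max k₀ r with hk
  have hz := hk₀ k (le_max_left _ _)
  have hzN : N ≤ S.Z k := le_of_max_le_left hz
  have hzc : 32 * H.c ≤ S.Z k := le_of_max_le_left (le_of_max_le_right hz)
  have hzL : 16 * L ≤ S.Z k := le_of_max_le_right (le_of_max_le_right hz)
  have hrQ : r ≤ S.P k := (le_max_right k₀ r).trans (S.le_P k)
  let b := H.band k
  have hw := b.wide
  have hlh := b.lo_lt
  obtain ⟨W, hW⟩ : ∃ W, b.hi = b.lo + W := ⟨b.hi - b.lo, by omega⟩
  rw [hW, Nat.add_sub_cancel_left] at hw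
  have hW32 : 32 ≤ W := by
    by_contra h
    have := Nat.mul_lt_mul_of_pos_left (not_le.1 h) H.c_pos
    omega
  set R : ℕ := W / 4 * S.P k with hR
  set C : ℕ := (b.lo + W / 2) * S.P k with hC
  set e : ℕ := S.P (k + 1) / L with he
  have hL0 : 0 < L := by omega
  have hQ := S.P_pos k
  have hM : S.P (k + 1) = S.Z k * S.P k := rfl
  have heQ : 8 * S.P k ≤ e := by
    rw [he, Nat.le_div_iff_mul_le hL0, hM]
    nlinarith
  have heM : e * L ≤ S.P (k + 1) := Nat.div_mul_le_self _ _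
  have heM' : S.P (k + 1) < (e + 1) * L := by
    have := Nat.lt_div_mul_add (a := S.P (k + 1)) hL0
    rw [← he] at this
    linarith
  have hP : Params₁ b e C R r := by
    refine ⟨H.c_pos, by omega, hrQ, by exact_mod_cast heQ, ?_, Nat.mul_pos (by omega) hQ, ?_, ?_⟩
    · have he0 : 0 < e := by omega
      have h1 : 2 * H.c * (16 * e) < L * e := by
        rw [show 2 * H.c * (16 * e) = 32 * H.c * e by ring]
        exact Nat.mul_lt_mul_of_pos_right (by omega) he0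
      have h2 : 2 * H.c * (16 * e) < S.P (k + 1) := by linarith
      exact_mod_cast h2
    · have h1 : W / 4 + 7 ≤ W / 2 := by omega
      have h2 : (b.lo + 3) * S.P k + R + 4 * r ≤ C := by
        rw [hR, hC]
        nlinarith
      exact_mod_cast h2
    · have h1 : W / 2 + W / 4 + 6 ≤ W := by omega
      have h2 : C + R + 4 * r + S.P k < b.hi * S.P k := by
        rw [hR, hC, hW]
        nlinarith
      have h3 : (C : ℤ) + R + 4 * r + S.P k < (b.hi : ℤ) * S.P k := by exact_mod_cast h2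
      linarith
  have hrad : ∀ i : Key₁ S m k H.V e, 0 < rad₁ (S := S) (m := m) (k := k) (V := H.V) e R i := by
    rintro (i | i | i)
    · exact hP.R_pos
    · exact hP.R_pos
    · show 0 < e
      omega
  refine ⟨(piProb fun i : Key₁ S m k H.V e => tentLaw (cen₁ e C i) (rad₁ e R i)).mapDomain
      (anchor₁ b e), (isProb_piProb fun i => isProb_tentLaw _ (hrad i)).mapDomain _, fun g hg => ?_⟩
  obtain ⟨hg1, hg2⟩ := hr g hg
  obtain ⟨σ, s, hs, hcen, hR', hU, hV, hT⟩ := exists_reindex₁ hP g hg1 hg2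
  refine (l1_anchor_mixture_le g (anchor₁ b e) (cen₁ e C) (rad₁ e R) hrad σ hcen hR' s
    fun θ hθ => smul_anchor₁ hP g hg1 σ s hs hcen hR' hU hV hT θ hθ).trans_lt ?_
  have hsum : ∑ i, ((s i : ℝ) / (rad₁ e R i : ℝ)) ^ 2 ≤ δ := by
    refine (sum_cost₁ R r s hs).trans ?_
    have hQr : (1 : ℝ) ≤ S.P k := by exact_mod_cast hQ
    have hMr : (S.P (k + 1) : ℝ) = S.Z k * S.P k := by rw [hM]; push_cast; ring
    have hZr : (0 : ℝ) < S.Z k := by exact_mod_cast S.zoom_pos k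
    have hLr : (0 : ℝ) < L := by exact_mod_cast hL0
    have hRr : (S.Z k : ℝ) * S.P k ≤ 8 * H.c * R := by
      have : S.Z k * S.P k ≤ 8 * H.c * R := by
        rw [hR, ← mul_assoc]
        refine Nat.mul_le_mul_right _ (hw.trans ?_)
        rw [mul_comm 8, mul_assoc]
        exact Nat.mul_le_mul_left _ (by omega)
      exact_mod_cast this
    have he1 : (e : ℝ) * L ≤ S.Z k * S.P k := by rw [← hMr]; exact_mod_cast heM
    have he2 : (S.Z k : ℝ) * S.P k ≤ 2 * L * e := by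
      have : (S.P (k + 1) : ℝ) < ((e : ℝ) + 1) * L := by exact_mod_cast heM'
      have he0 : (1 : ℝ) ≤ e := by exact_mod_cast (by omega : 1 ≤ e)
      rw [← hMr]; nlinarith
    rw [hMr]
    exact cost_le (H.c : ℝ) m H.V L (r : ℝ) (S.Z k) (S.P k) e R δ hc (Nat.cast_nonneg _) (Nat.cast_nonneg _) hLr hZr
      (by linarith) (by exact_mod_cast hP.R_pos)
      (by exact_mod_cast (by omega : 1 ≤ e)) hRr he1 he2
      (by
        have := hL2.le
        rw [div_mul_eq_mul_div, div_le_iff₀ hδ0] at this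
        linarith)
      (by
        have hNz : (N : ℝ) ≤ S.Z k := by exact_mod_cast hzN
        have := hN.le.trans hNz
        rw [div_mul_eq_mul_div, div_le_iff₀ hδ0] at this
        linarith)
  calc 8 * Real.sqrt (∑ i, ((s i : ℝ) / (rad₁ e R i : ℝ)) ^ 2) ≤ 8 * Real.sqrt δ := by gcongr
    _ = 8 * (ε / 16) := by rw [hδ, Real.sqrt_sq (by positivity)]
    _ < ε := by linarith

end Vale.Agent.P196.Amen
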