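import Vale.Agent.P196.Amen.BandI

/-!
# P196: almost invariant measures on vertical anchors

For finitely many elements fixing a horizontal anchor `P`, points move inside bounded strips
around their anchored column, so the types of the few children around that column are invariant.
At a deep level the anchor of a point is the bottom edge of its parent or the next one, decided by
a random threshold in the band of rows, one for each class of such data.
-/

namespace Vale.Agent.P196.Amen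

open Sft
open Sft.MacroSystem

variable {S : MacroSystem} {m k c V A : ℕ} (b : S.Band k c V)

/-- What matters of a child column in the band of rows: blank, near an exceptional column, or at
the edge of the band of columns. -/
abbrev ColType (V : ℕ) : Type := Option ((Fin 5 × Fin V) ⊕ Fin 20)

/-- An offset from `-2` to `2`, shifted. -/
def five (n : ℕ) : Fin 5 := ⟨min n 4, by omega⟩

/-- The index of a column near an edge of the band of columns. -/
def edgeIdx (i : ℕ) : Fin 20 :=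
  if i < b.lo + 10 then ⟨min (i - b.lo) 9, by omega⟩ else ⟨10 + min (b.hi - 1 - i) 9, by omega⟩

open Classical in
/-- The type of the column `i` of a parent. -/
noncomputable def colTypeAux (i : ℕ) (w : Win (S.C (k + 1))) : ColType V :=
  if b.lo ≤ i ∧ i < b.hi then some (Sum.inr (edgeIdx b i))
  else if S.Z k ≤ i + 2 then some (Sum.inl (five (i + 2 - S.Z k), b.colLabel w 0))
  else if h : ∃ i₀ ∈ b.exCol w, i₀ ≤ i + 2 ∧ i ≤ i₀ + 2 then
    some (Sum.inl (five (i + 2 - h.choose), b.colLabel w h.choose))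
  else none

/-- The column type of a child. -/
noncomputable def colType (T : S.Conf k) : ColType V :=
  colTypeAux b (S.res k T).1.val (S.win k T)

/-- The colour of a child in the band of rows, from its row and its column type. -/
def decodeCol (J : ℕ) : ColType V → S.C k
  | none => b.pblank J
  | some (Sum.inl (s, l)) => b.colPat J ((s.val : ℤ) - 2) l
  | some (Sum.inr e) => b.blank (if e.val < 10 then b.lo + e.val else b.hi - 1 - (e.val - 10))

/-- In the band of rows no exceptional row is near, so the band of columns is blank. -/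
theorem colour_blank (T : S.Conf k) (hlo : b.plo ≤ (S.res k T).2.val)
    (hhi : (S.res k T).2.val + 2 < b.phi) (h1 : b.lo ≤ (S.res k T).1.val)
    (h2 : (S.res k T).1.val < b.hi) : T.1 0 = b.blank (S.res k T).1.val := by
  have hw := S.win_mem k T
  have := b.phi_le
  rw [apply_zero]
  refine b.draw_blank _ hw _ _ h1 h2 (by omega) (by omega) fun j hj => ?_
  have := b.exRow_avoid _ hw j hj
  omega

/-- The row and the column type determine the colour. -/
theorem colour_colType (T : S.Conf k) (hlo : b.plo ≤ (S.res k T).2.val)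
    (hhi : (S.res k T).2.val + 2 < b.phi)
    (he : b.lo ≤ (S.res k T).1.val → (S.res k T).1.val < b.hi →
      (S.res k T).1.val < b.lo + 10 ∨ b.hi ≤ (S.res k T).1.val + 10) :
    T.1 0 = decodeCol b (S.res k T).2.val (colType b T) := by
  have hw := S.win_mem k T
  have hi := (S.res k T).1.isLt
  unfold colType colTypeAux
  split_ifs with h1 h2 h3
  · rw [colour_blank b T hlo hhi h1.1 h1.2]
    have := he h1.1 h1.2
    simp only [decodeCol, edgeIdx]
    congr 1
    split_ifs with ha hb hb <;> simp only at * <;> omega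
  · rw [apply_zero, b.draw_right _ hw _ _ hlo (by omega) hi h2 _ hw]
    simp only [decodeCol, five]
    congr 1
    omega
  · obtain ⟨hm, e1, e2⟩ := h3.choose_spec
    rw [apply_zero, b.draw_col _ hw _ _ _ hm hlo (by omega) hi (by omega) e1 e2]
    simp only [decodeCol, five]
    congr 1
    omega
  · rw [apply_zero, b.draw_pblank _ hw _ _ hlo (by omega) hi (by omega) (by omega) fun i₀ hi₀ => ?_]
    · rfl
    · by_contra hn
      exact h3 ⟨i₀, hi₀, by omega, by omega⟩

/-- A vertical move inside the parent keeps the column, the window and the type. -/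
theorem act_vert (T : S.Conf k) (q : ℤ) (h : 0 ≤ ((S.res k T).2.val : ℤ) + q)
    (h' : ((S.res k T).2.val : ℤ) + q < S.Z k) :
    (S.res k (S.act k (0, q) T)).1 = (S.res k T).1 ∧
    ((S.res k (S.act k (0, q) T)).2.val : ℤ) = (S.res k T).2.val + q ∧
    colType b (S.act k (0, q) T) = colType b T := by
  have hi := (S.res k T).1.isLt
  have e1 : ((S.res k (S.act k (0, q) T)).1.val : ℤ) = (S.res k T).1.val := by
    rw [res_fst_act]
    simp only [add_zero]
    exact Int.emod_eq_of_lt (by omega) (by omega)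
  have e1' : (S.res k (S.act k (0, q) T)).1.val = (S.res k T).1.val := by exact_mod_cast e1
  refine ⟨Fin.ext e1', ?_, ?_⟩
  · rw [res_snd_act]
    exact Int.emod_eq_of_lt h h'
  · unfold colType MacroSystem.win
    rw [e1', S.par_act_of_mem k (0, q) T (by simp) (by simp only [add_zero]; omega) h h']

/-- The child `o` columns from the anchored one. -/
noncomputable def anchorTile (P : Anchor S m axis₁) (o : ℤ) (x : S.Pt m) : S.Conf k :=
  S.act k (((S.pos k x.1).1 + P.toFun x) / (S.P k : ℤ) + o, 0) (S.tile k x.1)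

theorem res_anchorTile (P : Anchor S m axis₁) (o : ℤ) (x : S.Pt m) :
    (((S.res k (anchorTile P o x)).1.val : ℤ) =
      (((S.res k (anchorTile (k := k) P 0 x)).1.val : ℤ) + o) % (S.Z k : ℤ)) ∧
    (S.res k (anchorTile (k := k) P o x)).2 = (S.res k (S.tile k x.1)).2 := by
  have hj := (S.res k (S.tile k x.1)).2.isLt
  refine ⟨?_, Fin.ext ?_⟩
  · rw [anchorTile, anchorTile, res_fst_act, res_fst_act, Int.emod_add_emod]
    simp only [add_zero]
    ring_nf
  · have h := S.res_snd_act k (((S.pos k x.1).1 + P.toFun x) / (S.P k : ℤ) + o, 0) (S.tile k x.1)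
    simp only [add_zero] at h
    rw [Int.emod_eq_of_lt (by omega) (by omega)] at h
    exact_mod_cast h

/-- The classes of thresholds. -/
abbrev Key₂ (S : MacroSystem) (m k V A : ℕ) : Type :=
  Fin m × Fin (2 * A + 1) × Fin (S.P k) ×
    ((Fin (S.Z k) × Fin (S.P k)) ⊕ (Fin (S.P (k + 1)) × (Fin 9 → ColType V)))

/-- The anchored column is deep in the band of columns. -/
def Deep (i : ℕ) : Prop := b.lo + 5 ≤ i ∧ i + 5 < b.hi

variable (A)

open Classical in
/-- The class of a point. -/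
noncomputable def key₂ (P : Anchor S m axis₁) (x : S.Pt m) : Key₂ S m k V A :=
  (x.2, fi _ (P.toFun x), fi _ ((S.pos k x.1).1 + P.toFun x),
    if Deep b (S.res k (anchorTile P 0 x)).1.val then
      Sum.inl ((S.res k (anchorTile P 0 x)).1, fi _ (S.pos (k + 1) x.1).2)
    else Sum.inr (fi _ (S.pos (k + 1) x.1).2,
      fun o => colType b (anchorTile P ((o.val : ℤ) - 4) x)))

/-- The anchor of a configuration of thresholds. -/
noncomputable def anchor₂ (P : Anchor S m axis₁) (θ : Key₂ S m k V A → ℤ) : Anchor S m axis₂ :=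
  (⟨fun x => if (S.pos (k + 1) x.1).2 < θ (key₂ A b P x) then -(S.pos (k + 1) x.1).2
      else S.P (k + 1) - (S.pos (k + 1) x.1).2, by
    refine (IsLocallyConstant.iff_eventually_eq _).2 fun x => ?_
    have hfst : Continuous (Prod.fst : S.Pt m → S.Conf 0) := continuous_fst
    have h1 := (IsLocallyConstant.iff_eventually_eq _).1
      ((S.isLocallyConstant_pos (k + 1)).1.comp_continuous hfst) x
    have h2 := (IsLocallyConstant.iff_eventually_eq _).1
      ((S.isLocallyConstant_pos k).1.comp_continuous hfst) x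
    have h3 := (IsLocallyConstant.iff_eventually_eq _).1
      ((IsLocallyConstant.iff_continuous _).2
        (continuous_snd : Continuous (Prod.snd : S.Pt m → Fin m))) x
    have h4 := (IsLocallyConstant.iff_eventually_eq _).1 P.isLocallyConstant x
    have hf : ∀ o : ℤ, Continuous fun y : S.Pt m =>
        S.act k (((S.pos k x.1).1 + P.toFun x) / (S.P k : ℤ) + o, 0) (S.tile k y.1) := fun o =>
      (S.continuous_act k _).comp ((S.isLocallyConstant_pos k).2.comp hfst)
    have h5 := fun o : ℤ => ((IsLocallyConstant.iff_eventually_eq _).1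
      ((S.isLocallyConstant_res k).comp_continuous (hf o)) x).and
      ((IsLocallyConstant.iff_eventually_eq _).1
        ((S.isLocallyConstant_win k).comp_continuous (hf o)) x)
    filter_upwards [h1, h2, h3, h4, h5 0,
      Filter.eventually_all.2 fun o : Fin 9 => h5 ((o.val : ℤ) - 4)] with y e1 e2 e3 e4 e5 e6
    simp only [Function.comp_apply] at e1 e2 e5 e6
    change P.toFun y = P.toFun x at e4
    have hk : key₂ A b P y = key₂ A b P x := by
      unfold key₂ anchorTile colType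
      rw [e1, e2, e3, e4, e5.1]
      simp only [(e6 _).1, (e6 _).2]
    rw [hk, e1]⟩ : LocallyConstant (S.Pt m) ℤ)

/-- The side conditions on the parameters of a level. -/
structure Params₂ (C R r : ℕ) : Prop where
  radius : r ≤ S.P k
  width : A ≤ S.P k
  R_pos : 0 < R
  left : ((b.plo : ℤ) + 4) * S.P k + R + 4 * r ≤ C
  right : (C : ℤ) + R + 4 * r < ((b.phi : ℤ) - 4) * S.P k

variable {b A}

/-- The row of the child of a point in the zone. -/
theorem row_zone {C R r : ℕ} (hP : Params₂ A b C R r) {x : S.Pt m}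
    (hz : |(S.pos (k + 1) x.1).2 - C| ≤ (R : ℤ) + 3 * r) :
    b.plo + 4 ≤ (S.res k (S.tile k x.1)).2.val ∧ (S.res k (S.tile k x.1)).2.val + 4 < b.phi := by
  obtain ⟨-, q0, q1⟩ := S.pos_mem k x.1
  rw [abs_le, pos_succ] at hz
  simp only at hz
  have hQ : (0 : ℤ) ≤ S.P k := Int.natCast_nonneg _
  have hl := hP.left
  have hh := hP.right
  have hr : (0 : ℤ) ≤ r := Int.natCast_nonneg _
  constructor
  · have : ((b.plo : ℤ) + 4) * S.P k < (((S.res k (S.tile k x.1)).2.val : ℤ) + 1) * S.P k := by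
      linarith
    have := lt_of_mul_lt_mul_right this hQ
    omega
  · have : ((S.res k (S.tile k x.1)).2.val : ℤ) * S.P k < ((b.phi : ℤ) - 4) * S.P k := by linarith
    have := lt_of_mul_lt_mul_right this hQ
    omega

theorem pos_succ_emod (t : S.Conf 0) :
    (S.pos (k + 1) t).2 % (S.P k : ℤ) = (S.pos k t).2 := by
  rw [pos_succ]
  simp only
  rw [add_comm, Int.add_mul_emod_self_right,
    Int.emod_eq_of_lt (S.pos_mem k t).2.1 (S.pos_mem k t).2.2]

/-- Two points in the zone of the same class look alike near the origin. -/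
theorem congr_key₂ {C R r : ℕ} (hP : Params₂ A b C R r) {P : Anchor S m axis₁}
    (hA : ∀ x, |P.toFun x| ≤ (A : ℤ)) {x x' : S.Pt m}
    (hz : |(S.pos (k + 1) x.1).2 - C| ≤ (R : ℤ) + 3 * r)
    (hz' : |(S.pos (k + 1) x'.1).2 - C| ≤ (R : ℤ) + 3 * r)
    (h : key₂ A b P x = key₂ A b P x') :
    P.toFun x = P.toFun x' ∧ (S.pos k x.1).1 = (S.pos k x'.1).1 ∧
      (S.pos (k + 1) x.1).2 % (S.P k : ℤ) = (S.pos (k + 1) x'.1).2 % (S.P k : ℤ) ∧
      ∀ v : Cell, |v.1| ≤ (S.P k : ℤ) → |v.2| ≤ (S.P k : ℤ) → x.1.1 v = x'.1.1 v := by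
  have hQ : (0 : ℤ) < S.P k := by exact_mod_cast S.P_pos k
  obtain ⟨⟨p0, p1⟩, q0, q1⟩ := S.pos_mem k x.1
  obtain ⟨⟨p0', p1'⟩, q0', q1'⟩ := S.pos_mem k x'.1
  simp only [key₂, Prod.mk.injEq] at h
  obtain ⟨-, hrel, hw, hs⟩ := h
  have hrel' : P.toFun x = P.toFun x' := fi_inj_abs (by push_cast; omega) (hA x) (hA x') hrel
  have hpu : (S.pos k x.1).1 = (S.pos k x'.1).1 := by
    refine fi_inj p0 p1 p0' p1' (fi_eq_iff.2 ?_)
    have := fi_eq_iff.1 hw
    rw [hrel'] at this
    exact (Int.emod_add_cancel_right _).1 this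
  have hδ : ((S.pos k x.1).1 + P.toFun x) / (S.P k : ℤ) =
      ((S.pos k x'.1).1 + P.toFun x') / (S.P k : ℤ) := by rw [hrel', hpu]
  have hδ1 : -1 ≤ ((S.pos k x.1).1 + P.toFun x) / (S.P k : ℤ) ∧
      ((S.pos k x.1).1 + P.toFun x) / (S.P k : ℤ) ≤ 1 := by
    have hA' := abs_le.1 (hA x)
    have : (A : ℤ) ≤ S.P k := by exact_mod_cast hP.width
    exact ⟨(Int.le_ediv_iff_mul_le hQ).2 (by linarith),
      Int.lt_add_one_iff.1 ((Int.ediv_lt_iff_lt_mul hQ).2 (by linarith))⟩
  have hv : (S.pos (k + 1) x.1).2 % (S.P k : ℤ) = (S.pos (k + 1) x'.1).2 % (S.P k : ℤ) := by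
    split_ifs at hs
    · exact fi_eq_iff.1 ((Prod.ext_iff.1 (Sum.inl.inj hs)).2)
    · have := (Prod.ext_iff.1 (Sum.inr.inj hs)).1
      rw [fi_inj (S.pos_mem _ _).2.1 (S.pos_mem _ _).2.2 (S.pos_mem _ _).2.1
        (S.pos_mem _ _).2.2 this]
  refine ⟨hrel', hpu, hv, fun v h1 h2 => S.apply_congr k x.1 x'.1 (Prod.ext hpu ?_) ?_ v h1 h2⟩
  · rwa [pos_succ_emod, pos_succ_emod] at hv
  intro d d1 d2 d3 d4
  set δ := ((S.pos k x.1).1 + P.toFun x) / (S.P k : ℤ) with hδdef
  have hd : ∀ y : S.Pt m, ((S.pos k y.1).1 + P.toFun y) / (S.P k : ℤ) = δ →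
      (S.tile k y.1).1 d = (S.act k (0, d.2) (anchorTile P (d.1 - δ) y)).1 0 := by
    intro y hy
    rw [anchorTile, act_act, hy]
    simp [act, shiftBy]
  rw [hd x rfl, hd x' hδ.symm]
  obtain ⟨j0, j1⟩ := row_zone hP hz
  obtain ⟨j0', j1'⟩ := row_zone hP hz'
  have hphi := b.phi_le
  have hloZ := b.hi_le
  obtain ⟨r1, r2⟩ := res_anchorTile P (d.1 - δ) x (k := k)
  obtain ⟨r1', r2'⟩ := res_anchorTile P (d.1 - δ) x' (k := k)
  obtain ⟨a1, a2, a3⟩ := act_vert b (anchorTile P (d.1 - δ) x) d.2 (by rw [r2]; omega)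
    (by rw [r2]; omega)
  obtain ⟨a1', a2', a3'⟩ := act_vert b (anchorTile P (d.1 - δ) x') d.2 (by rw [r2']; omega)
    (by rw [r2']; omega)
  rw [← congrArg Fin.val a1] at r1
  rw [← congrArg Fin.val a1'] at r1'
  rw [r2] at a2
  rw [r2'] at a2'
  have hI := (S.res k (anchorTile (k := k) P 0 x)).1.isLt
  split_ifs at hs with hD hD'
  · have hI' : (S.res k (anchorTile (k := k) P 0 x)).1 = (S.res k (anchorTile (k := k) P 0 x')).1 :=
      (Prod.ext_iff.1 (Sum.inl.inj hs)).1
    rw [← hI'] at r1'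
    unfold Deep at hD
    rw [Int.emod_eq_of_lt (by omega) (by omega)] at r1 r1'
    rw [colour_blank b _ (by omega) (by omega) (by omega) (by omega),
      colour_blank b _ (by omega) (by omega) (by omega) (by omega)]
    congr 1
    omega
  · rename_i hD'
    have hs' := Sum.inr.inj hs
    have hv' : (S.pos (k + 1) x.1).2 = (S.pos (k + 1) x'.1).2 :=
      fi_inj (S.pos_mem _ _).2.1 (S.pos_mem _ _).2.2 (S.pos_mem _ _).2.1 (S.pos_mem _ _).2.2
        ((Prod.ext_iff.1 hs').1)
    have hq : (S.pos k x.1).2 = (S.pos k x'.1).2 := by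
      rwa [pos_succ_emod, pos_succ_emod] at hv
    have hJ : ((S.res k (S.tile k x.1)).2.val : ℤ) = (S.res k (S.tile k x'.1)).2.val := by
      rw [pos_succ, pos_succ] at hv'
      simp only at hv'
      exact mul_right_cancel₀ hQ.ne' (by linarith)
    have hty := congrFun ((Prod.ext_iff.1 hs').2) ⟨(d.1 - δ + 4).toNat, by omega⟩
    simp only at hty
    rw [show (((d.1 - δ + 4).toNat : ℕ) : ℤ) - 4 = d.1 - δ by omega] at hty
    have near : ∀ (I i : ℕ), I < S.Z k → ¬ Deep b I →
        (i : ℤ) = ((I : ℤ) + (d.1 - δ)) % (S.Z k : ℤ) →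
        b.lo ≤ i → i < b.hi → i < b.lo + 10 ∨ b.hi ≤ i + 10 := by
      intro I i hIZ hnd hi hlo hhi
      unfold Deep at hnd
      have hz8 := S.zoom_ge k
      rcases lt_or_ge ((I : ℤ) + (d.1 - δ)) 0 with h | h
      · rw [← Int.add_emod_right, Int.emod_eq_of_lt (by omega) (by omega)] at hi
        omega
      rcases lt_or_ge ((I : ℤ) + (d.1 - δ)) (S.Z k) with h' | h'
      · rw [Int.emod_eq_of_lt h h'] at hi
        omega
      · rw [← Int.sub_emod_right, Int.emod_eq_of_lt (by omega) (by omega)] at hi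
        omega
    rw [colour_colType b _ (by omega) (by omega) (near _ _ hI hD r1),
      colour_colType b _ (by omega) (by omega)
        (near _ _ (S.res k (anchorTile P 0 x')).1.isLt hD' r1'), a3, a3', hty]
    congr 1
    omega

/-- The class of a point determines its move and the class of its image. -/
theorem det_key₂ {C R r : ℕ} (hP : Params₂ A b C R r) {P : Anchor S m axis₁}
    (hA : ∀ x, |P.toFun x| ≤ (A : ℤ)) {g : S.fullGroup m} (hg : Reads g r) (hfix : g • P = P)
    {x x' : S.Pt m} (hz : |(S.pos (k + 1) x.1).2 - C| ≤ (R : ℤ) + 3 * r)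
    (hz' : |(S.pos (k + 1) x'.1).2 - C| ≤ (R : ℤ) + 3 * r)
    (h : key₂ A b P x = key₂ A b P x') :
    disp g x = disp g x' ∧ key₂ A b P (g.1 x) = key₂ A b P (g.1 x') := by
  obtain ⟨hrel, hpu, hv, hloc⟩ := congr_key₂ hP hA hz hz' h
  have hrQ : (r : ℤ) ≤ S.P k := by exact_mod_cast hP.radius
  have hQ : (0 : ℤ) < S.P k := by exact_mod_cast S.P_pos k
  have ha : x.2 = x'.2 := congrArg Prod.fst h
  obtain ⟨hd, hl⟩ : disp g x = disp g x' ∧ (g.1 x).2 = (g.1 x').2 := by
    obtain ⟨t, a⟩ := x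
    obtain ⟨t', a'⟩ := x'
    simp only at ha
    subst ha
    exact hg.2 t t' a fun v h1 h2 => hloc v (h1.trans hrQ) (h2.trans hrQ)
  refine ⟨hd, ?_⟩
  -- the data of a moved point
  have img : ∀ y : S.Pt m, |(S.pos (k + 1) y.1).2 - C| ≤ (R : ℤ) + 3 * r →
      P.toFun (g.1 y) = P.toFun y - (disp g y).1 ∧
      ((S.pos k (g.1 y).1).1 + P.toFun (g.1 y)) % (S.P k : ℤ) =
        ((S.pos k y.1).1 + P.toFun y) % (S.P k : ℤ) ∧
      (S.pos (k + 1) (g.1 y).1).2 = (S.pos (k + 1) y.1).2 + (disp g y).2 ∧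
      ∀ o, (S.res k (anchorTile P o (g.1 y))).1 = (S.res k (anchorTile (k := k) P o y)).1 ∧
        colType b (anchorTile P o (g.1 y)) = colType b (anchorTile (k := k) P o y) := by
    intro y hy
    obtain ⟨d1, d2⟩ := hg.1 y
    rw [abs_le] at d1 d2
    have hP' : P.toFun (g.1 y) = P.toFun y - (disp g y).1 := apply_of_smul_eq hfix y
    have e : (g.1 y).1 = S.act 0 (disp g y) y.1 := fst_apply g y
    have hp : (S.pos k (g.1 y).1).1 = ((S.pos k y.1).1 + (disp g y).1) % (S.P k : ℤ) := by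
      rw [e, pos_act]
    have hsum : (S.pos k (g.1 y).1).1 + P.toFun (g.1 y) = (S.pos k y.1).1 + P.toFun y +
        -(((S.pos k y.1).1 + (disp g y).1) / (S.P k : ℤ)) * (S.P k : ℤ) := by
      rw [hp, hP']
      linarith [Int.emod_add_mul_ediv ((S.pos k y.1).1 + (disp g y).1) (S.P k : ℤ)]
    obtain ⟨j0, j1⟩ := row_zone hP hy
    obtain ⟨-, q0, q1⟩ := S.pos_mem k y.1
    have hphi := b.phi_le
    have hM : (S.P (k + 1) : ℤ) = S.Z k * S.P k := by simp [MacroSystem.P]
    refine ⟨hP', by rw [hsum, Int.add_mul_emod_self_right], ?_, fun o => ?_⟩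
    · rw [e, pos_act]
      refine Int.emod_eq_of_lt ?_ ?_ <;> rw [pos_succ] <;> simp only
      · nlinarith
      · rw [hM]
        have : ((S.res k (S.tile k y.1)).2.val : ℤ) + 4 < S.Z k := by omega
        nlinarith
    · have ht : anchorTile (k := k) P o (g.1 y) =
          S.act k (0, ((S.pos k y.1).2 + (disp g y).2) / (S.P k : ℤ)) (anchorTile P o y) := by
        rw [anchorTile, anchorTile, hsum, e, tile_act, act_act, act_act,
          Int.add_mul_ediv_right _ _ hQ.ne']
        congr 1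
        ext <;> simp only [Prod.fst_add, Prod.snd_add] <;> ring
      have u0 : -1 ≤ ((S.pos k y.1).2 + (disp g y).2) / (S.P k : ℤ) :=
        (Int.le_ediv_iff_mul_le hQ).2 (by linarith)
      have u1 : ((S.pos k y.1).2 + (disp g y).2) / (S.P k : ℤ) ≤ 1 :=
        Int.lt_add_one_iff.1 ((Int.ediv_lt_iff_lt_mul hQ).2 (by linarith))
      obtain ⟨a1, -, a3⟩ := act_vert b (anchorTile P o y)
        (((S.pos k y.1).2 + (disp g y).2) / (S.P k : ℤ))
        (by rw [(res_anchorTile P o y).2]; omega) (by rw [(res_anchorTile P o y).2]; omega)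
      rw [ht]
      exact ⟨a1, a3⟩
  obtain ⟨i1, i2, i3, i4⟩ := img x hz
  obtain ⟨i1', i2', i3', i4'⟩ := img x' hz'
  simp only [key₂, Prod.mk.injEq] at h ⊢
  obtain ⟨-, -, hw, hs⟩ := h
  refine ⟨hl, by rw [i1, i1', hrel, hd], fi_eq_iff.2 (by rw [i2, i2', hrel, hpu]), ?_⟩
  rw [(i4 0).1, (i4' 0).1]
  split_ifs at hs ⊢ with hD hD'
  · have hI := (Prod.ext_iff.1 (Sum.inl.inj hs)).1
    simp only at hI
    refine congrArg Sum.inl (Prod.ext hI (fi_eq_iff.2 ?_))
    rw [i3, i3', hd, Int.add_emod, hv, ← Int.add_emod]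
  · have hs' := Sum.inr.inj hs
    refine congrArg Sum.inr (Prod.ext ?_ (funext fun o => ?_))
    · simp only [i3, i3', hd, fi_inj (S.pos_mem _ _).2.1 (S.pos_mem _ _).2.2 (S.pos_mem _ _).2.1
        (S.pos_mem _ _).2.2 ((Prod.ext_iff.1 hs').1)]
    · simp only [(i4 _).2, (i4' _).2]
      exact congrFun ((Prod.ext_iff.1 hs').2) o

/-- An element fixing `P` moves the anchor of thresholds to that of moved thresholds. -/
theorem exists_smul_anchor₂ {C R r : ℕ} (hP : Params₂ A b C R r) {P : Anchor S m axis₁}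
    (hA : ∀ x, |P.toFun x| ≤ (A : ℤ)) (g : S.fullGroup m) (hg : Reads g r) (hg' : Reads g⁻¹ r)
    (hfix : g • P = P) :
    ∃ (σ : Equiv.Perm (Key₂ S m k V A)) (s : Key₂ S m k V A → ℤ), (∀ i, |s i| ≤ (r : ℤ)) ∧
      ∀ θ : Key₂ S m k V A → ℤ, (∀ i, |θ i - C| < R) →
        g • anchor₂ A b P θ = anchor₂ A b P fun i => θ (σ i) + s i := by
  have hy : ∀ x, (g.1 x).1 = S.act 0 (disp g x) x.1 := fun x => fst_apply g x
  have hhi : ((b.phi : ℤ) - 4) * S.P k ≤ S.P (k + 1) := by
    have : (b.phi : ℤ) ≤ S.Z k := by exact_mod_cast b.phi_le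
    rw [MacroSystem.P, Nat.cast_mul]
    gcongr
    omega
  have hlo : (0 : ℤ) ≤ ((b.plo : ℤ) + 4) * S.P k := by positivity
  have hR : (0 : ℤ) < R := by exact_mod_cast hP.R_pos
  have hr : (0 : ℤ) ≤ r := Int.natCast_nonneg r
  have zone : ∀ x : S.Pt m, |(S.pos (k + 1) x.1).2 - C| ≤ (R : ℤ) + 2 * r →
      |(S.pos (k + 1) (g.1 x).1).2 - C| ≤ (R : ℤ) + 3 * r := by
    intro x hx
    obtain ⟨-, d2⟩ := hg.1 x
    rw [abs_le] at hx d2
    rw [hy, pos_act]
    simp only
    rw [Int.emod_eq_of_lt (by linarith [hP.left]) (by linarith [hP.right]), abs_le]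
    constructor <;> linarith
  have wide : ∀ x : S.Pt m, |(S.pos (k + 1) x.1).2 - C| ≤ (R : ℤ) + 2 * r →
      |(S.pos (k + 1) x.1).2 - C| ≤ (R : ℤ) + 3 * r := fun x hx => hx.trans (by linarith)
  have hfix' : g⁻¹ • P = P := by rw [inv_smul_eq_iff, hfix]
  have hback : ∀ x, g⁻¹.1 (g.1 x) = x := fun x => Equiv.symm_apply_apply g.1 x
  obtain ⟨σ, s, hs, htr⟩ := exists_transport
    (fun x : S.Pt m => |(S.pos (k + 1) x.1).2 - C| ≤ (R : ℤ) + 2 * r)
    (key₂ A b P) (fun x => key₂ A b P (g.1 x)) (fun x => (disp g x).2) r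
    (fun x _ => (hg.1 x).2)
    (fun x x' hx hx' h => by
      obtain ⟨hd, hk⟩ := det_key₂ hP hA hg hfix (wide x hx) (wide x' hx') h
      exact ⟨hk, by rw [hd]⟩)
    (fun x x' hx hx' h => by
      have := (det_key₂ hP hA hg' hfix' (zone x hx) (zone x' hx') h).2
      rwa [hback, hback] at this)
  refine ⟨σ, s, hs, fun θ hθ => smul_eq_of_forall fun x => ?_⟩
  obtain ⟨-, v0, v1⟩ := S.pos_mem (k + 1) x.1
  show (if (S.pos (k + 1) (g.1 x).1).2 < θ (σ (key₂ A b P (g.1 x))) + s (key₂ A b P (g.1 x))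
      then -(S.pos (k + 1) (g.1 x).1).2
      else (S.P (k + 1) : ℤ) - (S.pos (k + 1) (g.1 x).1).2) =
    (if (S.pos (k + 1) x.1).2 < θ (key₂ A b P x) then -(S.pos (k + 1) x.1).2
      else (S.P (k + 1) : ℤ) - (S.pos (k + 1) x.1).2) - (disp g x).2
  have hpy : (S.pos (k + 1) (g.1 x).1).2 =
      ((S.pos (k + 1) x.1).2 + (disp g x).2) % (S.P (k + 1) : ℤ) := by rw [hy, pos_act]
  rw [hpy]
  refine threshold_anchor v0 v1 (hg.1 x).2 (by linarith [hP.left]) (by linarith [hP.right])
    (hθ _) ?_ fun hz => by rw [(htr x hz).1, (htr x hz).2]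
  calc |θ (σ (key₂ A b P (g.1 x))) + s (key₂ A b P (g.1 x)) - C|
      = |(θ (σ (key₂ A b P (g.1 x))) - C) + s (key₂ A b P (g.1 x))| := by ring_nf
    _ ≤ |θ (σ (key₂ A b P (g.1 x))) - C| + |s (key₂ A b P (g.1 x))| := abs_add_le _ _
    _ < _ := by linarith [hθ (σ (key₂ A b P (g.1 x))), hs (key₂ A b P (g.1 x))]

/-- The number of classes. -/
theorem card_key₂ : (Fintype.card (Key₂ S m k V A) : ℝ) =
    m * (2 * A + 1) * (1 + ((5 * V + 20 + 1 : ℕ) : ℝ) ^ 9) * S.Z k * (S.P k : ℝ) ^ 2 := by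
  simp only [Fintype.card_prod, Fintype.card_sum, Fintype.card_fin, Fintype.card_fun,
    Fintype.card_option]
  rw [MacroSystem.P]
  push_cast
  ring

/-- The arithmetic of the cost. -/
theorem cost₂_le (c r Z Q R N δ : ℝ) (hN : 0 ≤ N) (hZ : 0 < Z) (hQ : 0 < Q) (hR : 0 < R)
    (hRM : Z * Q ≤ 8 * c * R) (h : 64 * c ^ 2 * N * r ^ 2 ≤ δ * Z) :
    N * Z * Q ^ 2 * (r / R) ^ 2 ≤ δ := by
  have hZQ : 0 < Z * Q := mul_pos hZ hQ
  have hRi : 1 / R ≤ 8 * c / (Z * Q) := by
    rw [div_le_div_iff₀ hR hZQ]; linarith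
  have hq : (r / R) ^ 2 ≤ r ^ 2 * (8 * c / (Z * Q)) ^ 2 := by
    rw [div_eq_mul_one_div, mul_pow]
    exact mul_le_mul_of_nonneg_left (pow_le_pow_left₀ (by positivity) hRi 2) (sq_nonneg r)
  calc N * Z * Q ^ 2 * (r / R) ^ 2 ≤ N * Z * Q ^ 2 * (r ^ 2 * (8 * c / (Z * Q)) ^ 2) := by gcongr
    _ = 64 * c ^ 2 * N * r ^ 2 / Z := by field_simp; ring
    _ ≤ δ := by rw [div_le_iff₀ hZ]; exact h

/-- Almost invariant probabilities on vertical anchors, for elements fixing a horizontal one. -/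
theorem almostInv₂ (H : S.HasBands) (P : Anchor S m axis₁) (K : Finset (S.fullGroup m))
    (hK : ∀ g ∈ K, g • P = P) (ε : ℝ) (hε : 0 < ε) :
    ∃ μ : Anchor S m axis₂ →₀ ℝ, IsProb μ ∧ ∀ g ∈ K, l1 (μ.mapDomain (g • ·) - μ) < ε := by
  classical
  choose ρ hρ using fun g : S.fullGroup m => exists_reads g
  let r : ℕ := K.sup fun g => max (ρ g) (ρ g⁻¹)
  have hr : ∀ g ∈ K, Reads g r ∧ Reads g⁻¹ r := fun g hg => by
    have := Finset.le_sup (f := fun g => max (ρ g) (ρ g⁻¹)) hg
    exact ⟨(hρ g).mono (le_of_max_le_left this), (hρ g⁻¹).mono (le_of_max_le_right this)⟩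
  obtain ⟨A, hA⟩ := exists_bound P
  set δ : ℝ := (ε / 16) ^ 2 with hδ
  have hδ0 : 0 < δ := by positivity
  set T : ℝ := m * (2 * A + 1) * (1 + ((5 * H.V + 20 + 1 : ℕ) : ℝ) ^ 9) with hT
  obtain ⟨N, hN⟩ := exists_nat_gt (64 * (H.c : ℝ) ^ 2 * T * r ^ 2 / δ)
  obtain ⟨k₀, hk₀⟩ := H.zoom_tendsto (max N (48 * H.c))
  set k := max k₀ (max r A) with hk
  have hz := hk₀ k (le_max_left _ _)
  have hzN : N ≤ S.Z k := le_of_max_le_left hz
  have hzc : 48 * H.c ≤ S.Z k := le_of_max_le_right hz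
  have hrQ : r ≤ S.P k := ((le_max_left r A).trans (le_max_right k₀ _)).trans (S.le_P k)
  have hAQ : A ≤ S.P k := ((le_max_right r A).trans (le_max_right k₀ _)).trans (S.le_P k)
  let b := H.band k
  have hw := b.pwide
  have hlh := b.plo_lt
  obtain ⟨W, hW⟩ : ∃ W, b.phi = b.plo + W := ⟨b.phi - b.plo, by omega⟩
  rw [hW, Nat.add_sub_cancel_left] at hw
  have hW48 : 48 ≤ W := by
    by_contra h
    have := Nat.mul_lt_mul_of_pos_left (not_le.1 h) H.c_pos
    omega
  set R : ℕ := W / 4 * S.P k with hR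
  set C : ℕ := (b.plo + W / 2) * S.P k with hC
  have hQ := S.P_pos k
  have hP : Params₂ A b C R r := by
    refine ⟨hrQ, hAQ, Nat.mul_pos (by omega) hQ, ?_, ?_⟩
    · have h1 : W / 4 + 8 ≤ W / 2 := by omega
      have h2 : (b.plo + 4) * S.P k + R + 4 * r ≤ C := by
        rw [hR, hC]
        nlinarith
      exact_mod_cast h2
    · have h1 : W / 2 + W / 4 + 9 ≤ W := by omega
      have h2 : C + R + 4 * r + 4 * S.P k < b.phi * S.P k := by
        rw [hR, hC, hW]
        nlinarith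
      have h3 : (C : ℤ) + R + 4 * r + 4 * S.P k < (b.phi : ℤ) * S.P k := by exact_mod_cast h2
      linarith
  refine ⟨(piProb fun _ : Key₂ S m k H.V A => tentLaw (C : ℤ) R).mapDomain (anchor₂ A b P),
    (isProb_piProb fun _ => isProb_tentLaw _ hP.R_pos).mapDomain _, fun g hg => ?_⟩
  obtain ⟨hg1, hg2⟩ := hr g hg
  obtain ⟨σ, s, hs, hmove⟩ := exists_smul_anchor₂ hP hA g hg1 hg2 (hK g hg)
  refine (l1_anchor_mixture_le g (anchor₂ A b P) (fun _ => (C : ℤ)) (fun _ => R)
    (fun _ => hP.R_pos) σ (fun _ => rfl) (fun _ => rfl) s hmove).trans_lt ?_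
  have hsum : ∑ i, ((s i : ℝ) / (R : ℝ)) ^ 2 ≤ δ := by
    have hb : ∀ i, ((s i : ℝ) / R) ^ 2 ≤ ((r : ℝ) / R) ^ 2 := fun i => by
      rw [div_pow, div_pow]
      refine div_le_div_of_nonneg_right ?_ (sq_nonneg _)
      refine sq_le_sq.2 ?_
      rw [Nat.abs_cast]
      exact_mod_cast hs i
    refine (Finset.sum_le_sum fun i _ => hb i).trans ?_
    rw [Finset.sum_const, Finset.card_univ, nsmul_eq_mul, card_key₂]
    have hRr : (S.Z k : ℝ) * S.P k ≤ 8 * H.c * R := by
      have : S.Z k * S.P k ≤ 8 * H.c * R := by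
        rw [hR, ← mul_assoc]
        refine Nat.mul_le_mul_right _ (hw.trans ?_)
        rw [mul_comm 8, mul_assoc]
        exact Nat.mul_le_mul_left _ (by omega)
      exact_mod_cast this
    refine cost₂_le (H.c : ℝ) r (S.Z k) (S.P k) R T δ (by positivity)
      (by exact_mod_cast S.zoom_pos k) (by exact_mod_cast hQ) (by exact_mod_cast hP.R_pos) hRr ?_
    have hNz : (N : ℝ) ≤ S.Z k := by exact_mod_cast hzN
    have := hN.le.trans hNz
    rw [div_le_iff₀ hδ0] at this
    linarith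
  calc 8 * Real.sqrt (∑ i, ((s i : ℝ) / (R : ℝ)) ^ 2) ≤ 8 * Real.sqrt δ := by gcongr
    _ = 8 * (ε / 16) := by rw [hδ, Real.sqrt_sq (by positivity)]
    _ < ε := by linarith

end Vale.Agent.P196.Amen
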