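import Vale.Agent.P196.Amen.BandI
import Vale.Agent.P196.Amen.BandII

/-!
# P196: amenability of the full group

For a macro-tile system with bands the full group of the subshift times `m` points, and so every
group that embeds into it, is amenable in the sense of Følner sets.
-/

namespace Vale.Agent.P196.Amen

open Sft
open scoped symmDiff

variable {S : MacroSystem} {m : ℕ}

/-- A group that embeds into the full group of a macro-tile system with bands is amenable. -/
theorem folner_of_injective (H : S.HasBands) {A : Type*} [Group A] [DecidableEq A]
    (f : A →* S.fullGroup m) (hf : Function.Injective f) :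
    ∀ K : Finset A, ∀ ε : ℝ, 0 < ε → ∃ D : Finset A, D.Nonempty ∧
      ∀ g ∈ K, (((D.image (g * ·)) ∆ D).card : ℝ) < ε * D.card :=
  folner_of_anchor_measures (almostInv₁ H) (fun P K hK ε hε => almostInv₂ H P K hK ε hε) f hf

end Vale.Agent.P196.Amen
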