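import Mathlib

/-! The `ℓ¹` norm of finitely supported real functions. -/

namespace Vale.Agent.P196.Amen

open Finsupp

variable {α β : Type*}

/-- The `ℓ¹` norm. -/
noncomputable def l1 (v : α →₀ ℝ) : ℝ := v.sum fun _ a => |a|

lemma l1_eq_sum (v : α →₀ ℝ) {U : Finset α} (hU : v.support ⊆ U) :
    l1 v = ∑ x ∈ U, |v x| :=
  Finsupp.sum_of_support_subset v hU _ (by simp)

lemma l1_nonneg (v : α →₀ ℝ) : 0 ≤ l1 v := Finset.sum_nonneg fun _ _ => abs_nonneg _

@[simp] lemma l1_zero : l1 (0 : α →₀ ℝ) = 0 := by simp [l1]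

@[simp] lemma l1_single (x : α) (a : ℝ) : l1 (single x a) = |a| := by simp [l1]

lemma l1_neg (v : α →₀ ℝ) : l1 (-v) = l1 v := by
  classical
  rw [l1_eq_sum (-v) (U := v.support) (by simp), l1_eq_sum v subset_rfl]
  simp

lemma l1_sub_comm (v w : α →₀ ℝ) : l1 (v - w) = l1 (w - v) := by
  rw [← l1_neg, neg_sub]

lemma l1_add_le (v w : α →₀ ℝ) : l1 (v + w) ≤ l1 v + l1 w := by
  classical
  rw [l1_eq_sum (v + w) (U := v.support ∪ w.support) Finsupp.support_add,
    l1_eq_sum v (U := v.support ∪ w.support) Finset.subset_union_left,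
    l1_eq_sum w (U := v.support ∪ w.support) Finset.subset_union_right,
    ← Finset.sum_add_distrib]
  exact Finset.sum_le_sum fun x _ => by simpa using abs_add_le (v x) (w x)

lemma l1_smul (c : ℝ) (v : α →₀ ℝ) : l1 (c • v) = |c| * l1 v := by
  classical
  rw [l1_eq_sum (c • v) (U := v.support) Finsupp.support_smul, l1_eq_sum v subset_rfl,
    Finset.mul_sum]
  simp [abs_mul]

lemma l1_sum_le {ι : Type*} (s : Finset ι) (v : ι → α →₀ ℝ) :
    l1 (∑ i ∈ s, v i) ≤ ∑ i ∈ s, l1 (v i) := by
  classical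
  induction s using Finset.induction_on with
  | empty => simp
  | insert i s hi ih =>
    rw [Finset.sum_insert hi, Finset.sum_insert hi]
    exact (l1_add_le _ _).trans (by linarith)

/-- The linear extension of `x ↦ w x`. -/
noncomputable def push (w : α → β →₀ ℝ) (v : α →₀ ℝ) : β →₀ ℝ :=
  v.sum fun x a => a • w x

lemma push_eq_sum (w : α → β →₀ ℝ) (v : α →₀ ℝ) {U : Finset α} (hU : v.support ⊆ U) :
    push w v = ∑ x ∈ U, v x • w x :=
  Finsupp.sum_of_support_subset v hU _ (by simp)

lemma push_sub (w : α → β →₀ ℝ) (v v' : α →₀ ℝ) :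
    push w (v - v') = push w v - push w v' :=
  Finsupp.sum_sub_index fun x a b => sub_smul a b (w x)

lemma l1_push_le (w : α → β →₀ ℝ) (hw : ∀ x, l1 (w x) ≤ 1) (v : α →₀ ℝ) :
    l1 (push w v) ≤ l1 v := by
  rw [push_eq_sum w v subset_rfl, l1_eq_sum v subset_rfl]
  refine (l1_sum_le _ _).trans (Finset.sum_le_sum fun x _ => ?_)
  rw [l1_smul]
  exact mul_le_of_le_one_right (abs_nonneg _) (hw x)

lemma mapDomain_eq_push (f : α → β) (v : α →₀ ℝ) :
    v.mapDomain f = push (fun x => single (f x) (1 : ℝ)) v := by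
  simp [push, Finsupp.mapDomain]

lemma l1_mapDomain_le (f : α → β) (v : α →₀ ℝ) : l1 (v.mapDomain f) ≤ l1 v := by
  rw [mapDomain_eq_push]
  exact l1_push_le _ (by simp) v

lemma l1_mapDomain_sub_le (f : α → β) (v w : α →₀ ℝ) :
    l1 (v.mapDomain f - w.mapDomain f) ≤ l1 (v - w) := by
  rw [← Finsupp.mapDomain_sub]
  exact l1_mapDomain_le f _

/-- A finitely supported probability. -/
structure IsProb (v : α →₀ ℝ) : Prop where
  nonneg : ∀ x, 0 ≤ v x
  total : (v.sum fun _ a => a) = 1

lemma IsProb.sum_eq {v : α →₀ ℝ} (h : IsProb v) {U : Finset α} (hU : v.support ⊆ U) :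
    ∑ x ∈ U, v x = 1 :=
  (Finsupp.sum_of_support_subset v hU (fun _ a => a) (by simp)).symm.trans h.total

lemma IsProb.l1_eq {v : α →₀ ℝ} (h : IsProb v) : l1 v = 1 := by
  rw [l1_eq_sum v subset_rfl, ← h.sum_eq subset_rfl]
  exact Finset.sum_congr rfl fun x _ => abs_of_nonneg (h.nonneg x)

lemma IsProb.single (x : α) : IsProb (Finsupp.single x (1 : ℝ)) := by
  classical
  exact ⟨fun y => by simp only [Finsupp.single_apply]; split_ifs <;> norm_num, by simp⟩

lemma IsProb.push {w : α → β →₀ ℝ} (hw : ∀ x, IsProb (w x)) {v : α →₀ ℝ} (h : IsProb v) :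
    IsProb (push w v) := by
  classical
  refine ⟨fun y => ?_, ?_⟩
  · rw [push_eq_sum w v subset_rfl, Finsupp.finsetSum_apply]
    exact Finset.sum_nonneg fun x _ => by
      simpa using mul_nonneg (h.nonneg x) ((hw x).nonneg y)
  · rw [Amen.push, Finsupp.sum_sum_index (fun _ => rfl) (fun _ _ _ => rfl), ← h.total]
    refine Finsupp.sum_congr fun x _ => ?_
    rw [Finsupp.sum_smul_index (fun _ => rfl), ← Finsupp.mul_sum, (hw x).total, mul_one]

lemma IsProb.mapDomain (f : α → β) {v : α →₀ ℝ} (h : IsProb v) : IsProb (v.mapDomain f) := by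
  rw [mapDomain_eq_push]
  exact IsProb.push (fun x => IsProb.single _) h

/-- The uniform probability on a finite set. -/
noncomputable def unif (F : Finset α) : α →₀ ℝ :=
  ∑ x ∈ F, Finsupp.single x ((F.card : ℝ)⁻¹)

lemma isProb_unif {F : Finset α} (hF : F.Nonempty) : IsProb (unif F) := by
  classical
  have hval : ∀ y, unif F y = if y ∈ F then (F.card : ℝ)⁻¹ else 0 := by
    intro y
    simp [unif, Finsupp.single_apply]
  have hsupp : (unif F).support ⊆ F := by
    intro y hy
    by_contra hyF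
    simp [hval, hyF] at hy
  refine ⟨fun y => ?_, ?_⟩
  · rw [hval]; split_ifs <;> positivity
  · rw [Finsupp.sum_of_support_subset _ hsupp _ (by simp),
      Finset.sum_congr rfl fun y hy => (hval y).trans (if_pos hy)]
    simp [hF.card_pos.ne']

lemma mapDomain_unif_eq {F : Finset α} (f : α → α) (hinj : Set.InjOn f F)
    (himg : Set.MapsTo f F F) : (unif F).mapDomain f = unif F := by
  classical
  have h : F.image f = F :=
    Finset.eq_of_subset_of_card_le (fun y hy => by
      obtain ⟨x, hx, rfl⟩ := Finset.mem_image.mp hy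
      exact himg hx) (Finset.card_image_of_injOn hinj).ge
  rw [unif, Finsupp.mapDomain_finsetSum]
  conv_rhs => rw [← h]
  rw [Finset.sum_image hinj]
  exact Finset.sum_congr rfl fun x _ => by
    rw [Finsupp.mapDomain_single, h]

end Vale.Agent.P196.Amen
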