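import Vale.Agent.P196.Amen.L1

/-!
Almost invariant finitely supported probabilities, the transfer from an action with
amenable stabilisers to the group, and the passage to Følner sets.
-/

namespace Vale.Agent.P196.Amen

open Finsupp
open scoped symmDiff

variable {G H X : Type*} [Group G]

/-- For every finite `K ⊆ S` there are almost `K`-invariant probabilities on `G`. -/
def ReiterOn (S : Set G) : Prop :=
  ∀ K : Finset G, (↑K : Set G) ⊆ S → ∀ ε : ℝ, 0 < ε →
    ∃ φ : G →₀ ℝ, IsProb φ ∧ ∀ g ∈ K, l1 (φ.mapDomain (g * ·) - φ) < ε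

/-- For every finite `K ⊆ S` there are almost `K`-invariant probabilities on `X`. -/
def AlmostInvOn (S : Set G) (X : Type*) [MulAction G X] : Prop :=
  ∀ K : Finset G, (↑K : Set G) ⊆ S → ∀ ε : ℝ, 0 < ε →
    ∃ μ : X →₀ ℝ, IsProb μ ∧ ∀ g ∈ K, l1 (μ.mapDomain (g • ·) - μ) < ε

lemma ReiterOn.mono {S T : Set G} (h : ReiterOn T) (hST : S ⊆ T) : ReiterOn S :=
  fun K hK => h K (hK.trans hST)

/-- Being Reiter is a local property: it suffices to know it on each finitely generated part. -/
lemma reiterOn_of_closure {S : Set G}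
    (h : ∀ K : Finset G, (↑K : Set G) ⊆ S → ReiterOn (Subgroup.closure (↑K : Set G) : Set G)) :
    ReiterOn S :=
  fun K hK => h K hK K Subgroup.subset_closure

lemma mapDomain_push {α β γ : Type*} (f : β → γ) (w : α → β →₀ ℝ) (v : α →₀ ℝ) :
    (push w v).mapDomain f = push (fun x => (w x).mapDomain f) v := by
  rw [push_eq_sum _ _ subset_rfl, push_eq_sum _ _ subset_rfl, Finsupp.mapDomain_finsetSum]
  simp [Finsupp.mapDomain_smul]

lemma push_mapDomain {α β γ : Type*} (f : α → β) (w : β → γ →₀ ℝ) (v : α →₀ ℝ) :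
    push w (v.mapDomain f) = push (fun x => w (f x)) v :=
  Finsupp.sum_mapDomain_index (fun _ => zero_smul _ _) (fun _ _ _ => add_smul _ _ _)

/-- Locally finite sets carry exactly invariant probabilities. -/
lemma reiterOn_of_locallyFinite {S : Set G}
    (h : ∀ K : Finset G, (↑K : Set G) ⊆ S → (Subgroup.closure (↑K : Set G) : Set G).Finite) :
    ReiterOn S := by
  intro K hK ε hε
  have hfin := h K hK
  refine ⟨unif hfin.toFinset, isProb_unif ⟨1, hfin.mem_toFinset.mpr (one_mem _)⟩, fun g hg => ?_⟩
  rw [mapDomain_unif_eq _ (fun a _ b _ hab => mul_left_cancel hab) ?_]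
  · simpa using hε
  · intro x hx
    rw [Finset.mem_coe, Set.Finite.mem_toFinset] at hx ⊢
    exact mul_mem (Subgroup.subset_closure hg) hx

/-- The transfer: almost invariant measures and amenable stabilisers give amenability. -/
theorem reiterOn_of_almostInv [MulAction G X] (H : Subgroup G)
    (hμ : AlmostInvOn (H : Set G) X)
    (hstab : ∀ x : X, ReiterOn {g : G | g ∈ H ∧ g • x = x}) : ReiterOn (H : Set G) := by
  classical
  intro K hK ε hε
  obtain ⟨μ, hμp, hμi⟩ := hμ K hK (ε / 2) (by positivity)
  let r : X → X := fun x => (Quotient.mk (MulAction.orbitRel H X) x).out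
  have hrel : ∀ x : X, ∃ h : G, h ∈ H ∧ h • r x = x := fun x => by
    have := Quotient.mk_out (s := MulAction.orbitRel H X) x
    obtain ⟨h, hh⟩ := this
    refine ⟨(h⁻¹ : H), (h⁻¹).2, ?_⟩
    show h⁻¹ • r x = x
    rw [inv_smul_eq_iff]
    exact hh.symm
  choose c hcH hc using hrel
  have hr : ∀ g ∈ H, ∀ x, r (g • x) = r x := fun g hg x => by
    show Quotient.out _ = Quotient.out _
    congr 1
    exact Quotient.sound ⟨⟨g, hg⟩, rfl⟩
  let s : G → X → G := fun g x => (c (g • x))⁻¹ * g * c x
  let S : X → Finset G := fun y =>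
    ((K ×ˢ μ.support).filter fun p => r p.2 = y).image fun p => s p.1 p.2
  have hS : ∀ y : X, (↑(S y) : Set G) ⊆ {g : G | g ∈ H ∧ g • y = y} := by
    intro y g hg
    obtain ⟨⟨k, x⟩, hp, rfl⟩ := Finset.mem_image.mp (Finset.mem_coe.mp hg)
    obtain ⟨hp2, rfl⟩ := Finset.mem_filter.mp hp
    have hkx := Finset.mem_product.mp hp2
    have hk : k ∈ H := hK hkx.1
    refine ⟨mul_mem (mul_mem (inv_mem (hcH _)) hk) (hcH _), ?_⟩
    simp only [s, mul_smul]
    rw [hc x, inv_smul_eq_iff, ← hr k hk x, hc]
  choose φ hφp hφi using fun y => hstab y (S y) (hS y) (ε / 2) (by positivity)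
  let w : X → G →₀ ℝ := fun x => (φ (r x)).mapDomain (c x * ·)
  have hw : ∀ x, IsProb (w x) := fun x => (hφp _).mapDomain _
  refine ⟨push w μ, IsProb.push hw hμp, fun g hg => ?_⟩
  have h2 : l1 ((push w μ).mapDomain (g * ·) - push w (μ.mapDomain (g • ·))) ≤ ε / 2 := by
    rw [mapDomain_push, push_mapDomain, push_eq_sum _ μ subset_rfl,
      push_eq_sum _ μ subset_rfl, ← Finset.sum_sub_distrib]
    calc _ ≤ ∑ x ∈ μ.support, l1 (μ x • (w x).mapDomain (g * ·) - μ x • w (g • x)) := l1_sum_le _ _
      _ ≤ ∑ x ∈ μ.support, μ x * (ε / 2) := Finset.sum_le_sum fun x hx => by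
          rw [← smul_sub, l1_smul, abs_of_nonneg (hμp.nonneg x)]
          refine mul_le_mul_of_nonneg_left ?_ (hμp.nonneg x)
          have hsK : s g x ∈ S (r x) :=
            Finset.mem_image.mpr ⟨(g, x), by simp [hg, hx], rfl⟩
          have e1 : (w x).mapDomain (g * ·) =
              ((φ (r x)).mapDomain (s g x * ·)).mapDomain (c (g • x) * ·) := by
            simp only [w, ← Finsupp.mapDomain_comp]
            congr 1
            funext a
            simp [s, mul_assoc]
          have e2 : w (g • x) = (φ (r x)).mapDomain (c (g • x) * ·) := by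
            simp only [w, hr g (hK hg) x]
          rw [e1, e2]
          exact (l1_mapDomain_sub_le _ _ _).trans (hφi _ _ hsK).le
      _ = ε / 2 := by rw [← Finset.sum_mul, hμp.sum_eq subset_rfl, one_mul]
  have h1 : l1 (push w (μ.mapDomain (g • ·)) - push w μ) < ε / 2 := by
    rw [← push_sub]
    exact (l1_push_le w (fun x => (hw x).l1_eq.le) _).trans_lt (hμi g hg)
  calc l1 ((push w μ).mapDomain (g * ·) - push w μ)
      = l1 (((push w μ).mapDomain (g * ·) - push w (μ.mapDomain (g • ·))) +
          (push w (μ.mapDomain (g • ·)) - push w μ)) := by rw [sub_add_sub_cancel]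
    _ ≤ _ := l1_add_le _ _
    _ < ε := by linarith

/-- The same for the whole group. -/
theorem reiterOn_univ_of_almostInv [MulAction G X] (hμ : AlmostInvOn (Set.univ : Set G) X)
    (hstab : ∀ x : X, ReiterOn {g : G | g • x = x}) : ReiterOn (Set.univ : Set G) := by
  have := reiterOn_of_almostInv (X := X) (⊤ : Subgroup G)
    (fun K _ => hμ K (Set.subset_univ _)) (fun x => (hstab x).mono fun g hg => hg.2)
  exact fun K _ => this K (by simp)

/-- Pulling back along an injective homomorphism. -/
theorem reiterOn_comap [Group H] (f : H →* G) (hf : Function.Injective f) {S : Set G}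
    (h : ReiterOn S) : ReiterOn (f ⁻¹' S) := by
  classical
  intro K hK ε hε
  obtain ⟨φ, hp, hi⟩ := h (K.image f) (by simpa [Set.image_subset_iff] using hK) ε hε
  let r : G → G := fun a => (Quotient.mk (QuotientGroup.rightRel f.range) a).out
  have hmem : ∀ a, ∃ b : H, f b = a * (r a)⁻¹ := fun a => by
    have := Quotient.mk_out (s := QuotientGroup.rightRel f.range) a
    exact MonoidHom.mem_range.mp (QuotientGroup.rightRel_apply.mp this)
  choose π hπ using hmem
  have hequiv : ∀ b a, π (f b * a) = b * π a := fun b a => hf <| by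
    rw [map_mul, hπ, hπ]
    have : r (f b * a) = r a := by
      show Quotient.out _ = Quotient.out _
      congr 1
      exact Quotient.sound (QuotientGroup.rightRel_apply.mpr ⟨b⁻¹, by simp⟩)
    rw [this, mul_assoc]
  refine ⟨φ.mapDomain π, hp.mapDomain π, fun g hg => ?_⟩
  have e : (φ.mapDomain π).mapDomain (g * ·) = (φ.mapDomain (f g * ·)).mapDomain π := by
    simp only [← Finsupp.mapDomain_comp]
    congr 1
    funext a
    simp [hequiv]
  rw [e]
  exact (l1_mapDomain_sub_le _ _ _).trans_lt (hi _ (Finset.mem_image_of_mem f hg))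

lemma layer_cake (K : Finset G) [DecidableEq G] (ε : ℝ)
    (hD : ∀ D : Finset G, D.Nonempty →
      ε * D.card ≤ ∑ g ∈ K, (((D.image (g * ·)) ∆ D).card : ℝ)) :
    ∀ n, ∀ v : G →₀ ℝ, v.support.card = n → (∀ x, 0 ≤ v x) →
      ε * l1 v ≤ ∑ g ∈ K, l1 (v.mapDomain (g * ·) - v) := by
  intro n
  induction n using Nat.strong_induction_on with
  | _ n ih =>
    intro v hn hv
    rcases v.support.eq_empty_or_nonempty with h0 | hne
    · simp [Finsupp.support_eq_empty.mp h0]
    · obtain ⟨a, ha, hmin⟩ := v.support.exists_min_image v hne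
      set m := v a
      have hm : 0 < m := lt_of_le_of_ne (hv a) (Ne.symm (Finsupp.mem_support_iff.mp ha))
      let D := v.support
      let u : G →₀ ℝ := Finsupp.onFinset D (fun x => if x ∈ D then v x - m else 0)
        (fun x hx => by by_contra h; simp [h] at hx)
      have hu : ∀ x, u x = if x ∈ D then v x - m else 0 := fun x => rfl
      have hvu : ∀ x, v x = u x + if x ∈ D then m else 0 := fun x => by
        rw [hu]; split_ifs with h
        · ring
        · simpa [D] using h
      have hu0 : ∀ x, 0 ≤ u x := fun x => by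
        rw [hu]; split_ifs with h
        · exact sub_nonneg.mpr (hmin x h)
        · exact le_rfl
      have hlt : u.support.card < n := by
        rw [← hn]
        refine Finset.card_lt_card ((Finset.ssubset_iff_of_subset Finsupp.support_onFinset_subset).mpr
          ⟨a, ha, ?_⟩)
        simp [m, D]
      have hl1 : l1 v = l1 u + m * D.card := by
        rw [l1_eq_sum v (U := D) subset_rfl, l1_eq_sum u Finsupp.support_onFinset_subset]
        have : ∀ x ∈ D, |v x| = |u x| + m := fun x hx => by
          rw [abs_of_nonneg (hv x), abs_of_nonneg (hu0 x), hvu x, if_pos hx]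
        rw [Finset.sum_congr rfl this, Finset.sum_add_distrib, Finset.sum_const, nsmul_eq_mul]
        ring
      have hg : ∀ g : G, l1 (u.mapDomain (g * ·) - u) + m * ((D.image (g * ·)) ∆ D).card ≤
          l1 (v.mapDomain (g * ·) - v) := by
        intro g
        have hap : ∀ (w : G →₀ ℝ) (x : G), w.mapDomain (g * ·) x = w (g⁻¹ * x) := fun w x => by
          have := Finsupp.mapDomain_apply (mul_right_injective g) w (g⁻¹ * x)
          simpa using this
        let U := D.image (g * ·) ∪ D
        have hsupp : ∀ w : G →₀ ℝ, w.support ⊆ D → (w.mapDomain (g * ·) - w).support ⊆ U :=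
          fun w hw => Finsupp.support_sub.trans (Finset.union_subset_union
            (Finsupp.mapDomain_support.trans (Finset.image_subset_image hw)) hw)
        rw [l1_eq_sum _ (hsupp u Finsupp.support_onFinset_subset), l1_eq_sum _ (hsupp v subset_rfl)]
        have hcard : m * ((D.image (g * ·)) ∆ D).card =
            ∑ x ∈ U, if x ∈ (D.image (g * ·)) ∆ D then m else 0 := by
          rw [Finset.sum_ite_mem, Finset.inter_eq_right.mpr (by
            intro x hx; simp [Finset.mem_symmDiff, U] at hx ⊢; tauto)]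
          simp [mul_comm]
        rw [hcard, ← Finset.sum_add_distrib]
        refine Finset.sum_le_sum fun x _ => ?_
        simp only [Finsupp.sub_apply, hap]
        have hmemI : x ∈ D.image (g * ·) ↔ g⁻¹ * x ∈ D := by
          simp only [Finset.mem_image]
          exact ⟨by rintro ⟨y, hy, rfl⟩; simpa using hy, fun h => ⟨_, h, by simp⟩⟩
        have hz : ∀ y, y ∉ D → u y = 0 := fun y hy => by rw [hu, if_neg hy]
        rw [hvu (g⁻¹ * x), hvu x]
        simp only [Finset.mem_symmDiff, hmemI]
        by_cases h1 : g⁻¹ * x ∈ D <;> by_cases h2 : x ∈ D <;>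
          simp [h1, h2, hz, abs_of_nonneg (hu0 _)]
        all_goals first
          | exact le_abs.mpr (Or.inl (by linarith))
          | exact le_abs.mpr (Or.inr (by linarith))
      calc ε * l1 v = ε * l1 u + m * (ε * D.card) := by rw [hl1]; ring
        _ ≤ ∑ g ∈ K, l1 (u.mapDomain (g * ·) - u) +
            m * ∑ g ∈ K, (((D.image (g * ·)) ∆ D).card : ℝ) :=
          add_le_add (ih _ hlt u rfl hu0) (mul_le_mul_of_nonneg_left (hD D hne) hm.le)
        _ ≤ _ := by
          rw [Finset.mul_sum, ← Finset.sum_add_distrib]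
          exact Finset.sum_le_sum fun g _ => hg g

/-- Reiter implies amenability in the sense of Følner. -/
theorem folner_of_reiterOn [DecidableEq G] (h : ReiterOn (Set.univ : Set G)) :
    ∀ K : Finset G, ∀ ε : ℝ, 0 < ε → ∃ D : Finset G, D.Nonempty ∧
      ∀ g ∈ K, (((D.image (g * ·)) ∆ D).card : ℝ) < ε * D.card := by
  intro K ε hε
  by_contra hno
  push Not at hno
  obtain ⟨φ, hp, hi⟩ := h K (Set.subset_univ _) (ε / (K.card + 1)) (by positivity)
  have hD : ∀ D : Finset G, D.Nonempty →
      ε * D.card ≤ ∑ g ∈ K, (((D.image (g * ·)) ∆ D).card : ℝ) := fun D hD => by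
    obtain ⟨g, hg, hle⟩ := hno D hD
    exact hle.trans (Finset.single_le_sum (f := fun g => (((D.image (g * ·)) ∆ D).card : ℝ))
      (fun _ _ => Nat.cast_nonneg _) hg)
  have := layer_cake K ε hD _ φ rfl hp.nonneg
  rw [hp.l1_eq, mul_one] at this
  have h2 : ∑ g ∈ K, l1 (φ.mapDomain (g * ·) - φ) ≤ K.card * (ε / (K.card + 1)) := by
    simpa using Finset.sum_le_card_nsmul K _ _ fun g hg => (hi g hg).le
  have h3 : (K.card : ℝ) * (ε / (K.card + 1)) < ε := by
    rw [mul_div_assoc', div_lt_iff₀ (by positivity)]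
    linarith
  linarith

end Vale.Agent.P196.Amen
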